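import Vale.Agent.P057.R3.H664.Shift

set_option autoImplicit false

/-!
P057, digit statistics, row IFF: replacing an aligned occurrence of `w 0` by `w j` does not change
membership.
-/

namespace Vale.Agent.P057.R3.H664

open Vale.Agent.P057.H380

/-- ROW (IFF). -/
theorem shift_iff {b : ℕ} (hb : 2 ≤ b) {r : List ℕ → List ℕ → Prop} (hr : Cong r) {A : Set ℕ}
    (hA : ∀ m n : ℕ, r (Nat.digits b m) (Nat.digits b n) → (m ∈ A ↔ n ∈ A)) {k : ℕ}
    {w : ℕ → List ℕ} {D m : ℕ}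
    (hw : ∀ j < k, Dig b (w j) ∧ (w j).length = m ∧ (w j).getLast? = some 1 ∧ r (w 0) (w j) ∧
      Nat.ofDigits b (w j) = Nat.ofDigits b (w 0) + j * D) {n i : ℕ}
    (hi : n / (b ^ m) ^ i % b ^ m = Nat.ofDigits b (w 0)) :
    ∀ j < k, (n ∈ A ↔ n + j * (D * (b ^ m) ^ i) ∈ A) := by
  intro j hj
  have h0 := hw 0 (by omega)
  have h1 := hw j hj
  have hP : 0 < (b ^ m) ^ i := by positivity
  have hPe : (b ^ m) ^ i = b ^ (m * i) := (pow_mul b m i).symm
  obtain ⟨x, hx, hxl, hxe⟩ := exists_pad hb (m * i) (n % (b ^ m) ^ i) (by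
    rw [← hPe]
    exact Nat.mod_lt _ hP)
  set z := n / (b ^ m) ^ i / b ^ m with hz
  have hval : ∀ v : List ℕ, v.length = m →
      Nat.ofDigits b (x ++ (v ++ Nat.digits b z)) =
        n % (b ^ m) ^ i + (b ^ m) ^ i * (Nat.ofDigits b v + b ^ m * z) := by
    intro v hv
    rw [Nat.ofDigits_append, Nat.ofDigits_append, hxe, hxl, hv, Nat.ofDigits_digits, ← hPe]
  have hdm : n / (b ^ m) ^ i = Nat.ofDigits b (w 0) + b ^ m * z := by
    rw [← hi, hz]
    exact (Nat.mod_add_div _ _).symm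
  have hn0 : Nat.ofDigits b (x ++ (w 0 ++ Nat.digits b z)) = n := by
    rw [hval _ h0.2.1, ← hdm]
    exact Nat.mod_add_div _ _
  have hn1 : Nat.ofDigits b (x ++ (w j ++ Nat.digits b z)) = n + j * (D * (b ^ m) ^ i) := by
    have e : Nat.ofDigits b (x ++ (w j ++ Nat.digits b z)) =
        Nat.ofDigits b (x ++ (w 0 ++ Nat.digits b z)) + j * (D * (b ^ m) ^ i) := by
      rw [hval _ h1.2.1, hval _ h0.2.1, h1.2.2.2.2]
      ring
    rw [e, hn0]
  have e0 := digits_three hb hx h0.1 h0.2.2.1 z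
  have e1 := digits_three hb hx h1.1 h1.2.2.1 z
  rw [hn0] at e0
  rw [hn1] at e1
  refine hA n (n + j * (D * (b ^ m) ^ i)) ?_
  rw [e0, e1]
  exact hr.app (hr.eqv.refl x) (hr.app h1.2.2.2.1 (hr.eqv.refl _))

end Vale.Agent.P057.R3.H664
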