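import Vale.Agent.P057.R3.H380.Defs

set_option autoImplicit false

/-!
P057, digit statistics, row SHIFT: an occurrence of the word `w 0` in an aligned block of the
digits of `n` may be replaced by `w j`, which adds `j * D` times the place value.
-/

namespace Vale.Agent.P057.R3.H664

open Vale.Agent.P057.H380

/-- Padded digits. -/
theorem exists_pad {b : ℕ} (hb : 2 ≤ b) : ∀ (L a : ℕ), a < b ^ L →
    ∃ x : List ℕ, Dig b x ∧ x.length = L ∧ Nat.ofDigits b x = a := by
  intro L
  induction L with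
  | zero =>
    intro a ha
    refine ⟨[], ?_, rfl, ?_⟩
    · intro d hd
      cases hd
    · simp only [pow_zero, Nat.lt_one_iff] at ha
      rw [ha, Nat.ofDigits_nil]
  | succ L ih =>
    intro a ha
    have h1 : a / b < b ^ L := by
      rw [Nat.div_lt_iff_lt_mul (by omega)]
      rwa [pow_succ] at ha
    obtain ⟨x, hx, hl, he⟩ := ih (a / b) h1
    refine ⟨(a % b) :: x, ?_, ?_, ?_⟩
    · intro d hd
      rcases List.mem_cons.1 hd with h | h
      · rw [h]
        exact Nat.mod_lt _ (by omega)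
      · exact hx d h
    · rw [List.length_cons, hl]
    · rw [Nat.ofDigits_cons, he]
      exact Nat.mod_add_div a b

/-- The digits of a number given by three blocks. -/
theorem digits_three {b : ℕ} (hb : 2 ≤ b) {x v : List ℕ} (hx : Dig b x) (hv : Dig b v)
    (hl : v.getLast? = some 1) (z : ℕ) :
    Nat.digits b (Nat.ofDigits b (x ++ (v ++ Nat.digits b z))) = x ++ (v ++ Nat.digits b z) := by
  apply Nat.digits_ofDigits b (by omega)
  · intro d hd
    rcases List.mem_append.1 hd with h | h
    · exact hx d h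
    · rcases List.mem_append.1 h with h | h
      · exact hv d h
      · exact Nat.digits_lt_base (by omega) h
  · intro hne
    have hv0 : v ≠ [] := by
      rintro rfl
      simp at hl
    by_cases hz : Nat.digits b z = []
    · have e : (x ++ (v ++ Nat.digits b z)).getLast? = some 1 := by
        rw [hz, List.append_nil, List.getLast?_append_of_ne_nil x hv0, hl]
      rw [List.getLast?_eq_getLast_of_ne_nil hne] at e
      have e2 := Option.some.inj e
      rw [e2]
      exact one_ne_zero
    · have e1 : (v ++ Nat.digits b z) ≠ [] := by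
        intro h
        exact hz (List.append_eq_nil_iff.1 h).2
      rw [List.getLast_append_of_ne_nil hne e1, List.getLast_append_of_ne_nil e1 hz]
      have hz0 : z ≠ 0 := by
        rintro rfl
        exact hz (Nat.digits_zero b)
      exact Nat.getLast_digit_ne_zero b hz0

/-- ROW (SHIFT). -/
theorem shift {b : ℕ} (hb : 2 ≤ b) {r : List ℕ → List ℕ → Prop} (hr : Cong r) {A : Set ℕ}
    (hA : ∀ m n : ℕ, r (Nat.digits b m) (Nat.digits b n) → (m ∈ A ↔ n ∈ A)) {k : ℕ}
    {w : ℕ → List ℕ} {D m : ℕ}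
    (hw : ∀ j < k, Dig b (w j) ∧ (w j).length = m ∧ (w j).getLast? = some 1 ∧ r (w 0) (w j) ∧
      Nat.ofDigits b (w j) = Nat.ofDigits b (w 0) + j * D) {n i : ℕ} (hn : n ∈ A)
    (hi : n / (b ^ m) ^ i % b ^ m = Nat.ofDigits b (w 0)) :
    ∀ j < k, n + j * (D * (b ^ m) ^ i) ∈ A := by
  intro j hj
  have h0 := hw 0 (by omega)
  have h1 := hw j hj
  have hP : 0 < (b ^ m) ^ i := by positivity
  have hPe : (b ^ m) ^ i = b ^ (m * i) := (pow_mul b m i).symm
  obtain ⟨x, hx, hxl, hxe⟩ := exists_pad hb (m * i) (n % (b ^ m) ^ i) (by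
    rw [← hPe]
    exact Nat.mod_lt _ hP)
  set z := n / (b ^ m) ^ i / b ^ m with hz
  have hval : ∀ v : List ℕ, v.length = m →
      Nat.ofDigits b (x ++ (v ++ Nat.digits b z)) =
        n % (b ^ m) ^ i + (b ^ m) ^ i * (Nat.ofDigits b v + b ^ m * z) := by
    intro v hv
    rw [Nat.ofDigits_append, Nat.ofDigits_append, hxe, hxl, hv, Nat.ofDigits_digits, ← hPe]
  have hdm : n / (b ^ m) ^ i = Nat.ofDigits b (w 0) + b ^ m * z := by
    rw [← hi, hz]
    exact (Nat.mod_add_div _ _).symm
  have hn0 : Nat.ofDigits b (x ++ (w 0 ++ Nat.digits b z)) = n := by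
    rw [hval _ h0.2.1, ← hdm]
    exact Nat.mod_add_div _ _
  have hn1 : Nat.ofDigits b (x ++ (w j ++ Nat.digits b z)) = n + j * (D * (b ^ m) ^ i) := by
    have e : Nat.ofDigits b (x ++ (w j ++ Nat.digits b z)) =
        Nat.ofDigits b (x ++ (w 0 ++ Nat.digits b z)) + j * (D * (b ^ m) ^ i) := by
      rw [hval _ h1.2.1, hval _ h0.2.1, h1.2.2.2.2]
      ring
    rw [e, hn0]
  have e0 := digits_three hb hx h0.1 h0.2.2.1 z
  have e1 := digits_three hb hx h1.1 h1.2.2.1 z
  rw [hn0] at e0
  rw [hn1] at e1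
  refine (hA n (n + j * (D * (b ^ m) ^ i)) ?_).1 hn
  rw [e0, e1]
  exact hr.app (hr.eqv.refl x) (hr.app h1.2.2.2.1 (hr.eqv.refl _))

end Vale.Agent.P057.R3.H664
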