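import Vale.Agent.P057.R3.H664.NilPoly

set_option autoImplicit false

/-!
P057 and P042, digit statistics: outputs in the product of a virtually nilpotent group and a
commutative monoid.  The coset of the product of the outputs is moved into the state.
-/

namespace Vale.Agent.P057.R3.H664

open Vale.Agent.P057.H380

section Coset

variable {Q G B : Type} [Group G] [CommMonoid B] (N : Subgroup G)

/-- Coset representatives. -/
noncomputable def rep (x : G ⧸ N) : G := Quotient.out x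

theorem mk_rep (x : G ⧸ N) : ((rep N x : G) : G ⧸ N) = x := QuotientGroup.out_eq' x

variable [N.Normal]

theorem coc_mem (x : G ⧸ N) (g : G) : rep N x * g * (rep N (x * (g : G ⧸ N)))⁻¹ ∈ N := by
  rw [← QuotientGroup.eq_one_iff]
  rw [QuotientGroup.mk_mul, QuotientGroup.mk_mul, QuotientGroup.mk_inv, mk_rep, mk_rep,
    mul_inv_cancel]

/-- The automaton which remembers the coset. -/
noncomputable def vaut (δ : Q → ℕ → Q × (G × B)) :
    Q × (G ⧸ N) → ℕ → (Q × (G ⧸ N)) × (N × B) := fun s d =>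
  (((δ s.1 d).1, s.2 * ((δ s.1 d).2.1 : G ⧸ N)),
    (⟨rep N s.2 * (δ s.1 d).2.1 * (rep N (s.2 * ((δ s.1 d).2.1 : G ⧸ N)))⁻¹, coc_mem N _ _⟩,
      (δ s.1 d).2.2))

theorem mrun_vaut (δ : Q → ℕ → Q × (G × B)) (u : List ℕ) : ∀ (q : Q) (x : G ⧸ N),
    mrun (vaut N δ) (q, x) u = (((mrun δ q u).1, x * ((mrun δ q u).2.1 : G ⧸ N)),
      (⟨rep N x * (mrun δ q u).2.1 * (rep N (x * ((mrun δ q u).2.1 : G ⧸ N)))⁻¹,
        coc_mem N _ _⟩, (mrun δ q u).2.2)) := by
  induction u with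
  | nil =>
    intro q x
    simp only [mrun, Prod.fst_one, Prod.snd_one, QuotientGroup.mk_one, mul_one, mul_inv_cancel]
    rfl
  | cons d u ih =>
    intro q x
    have h1 : mrun (vaut N δ) (q, x) (d :: u) =
        ((mrun (vaut N δ) (vaut N δ (q, x) d).1 u).1,
          (vaut N δ (q, x) d).2 * (mrun (vaut N δ) (vaut N δ (q, x) d).1 u).2) := rfl
    have h2 : mrun δ q (d :: u) = ((mrun δ (δ q d).1 u).1,
        (δ q d).2 * (mrun δ (δ q d).1 u).2) := rfl
    have h3 : (vaut N δ (q, x) d).1 = ((δ q d).1, x * ((δ q d).2.1 : G ⧸ N)) := rfl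
    rw [h1, h2, h3, ih]
    simp only [vaut, Prod.fst_mul, Prod.snd_mul, QuotientGroup.mk_mul, mul_assoc]
    refine Prod.ext rfl (Prod.ext (Subtype.ext ?_) rfl)
    simp only [Prod.mk_mul_mk, Subgroup.coe_mul]
    group

theorem vaut_eq {δ : Q → ℕ → Q × (G × B)} {u v : List ℕ}
    (h : ∀ s, mrun (vaut N δ) s u = mrun (vaut N δ) s v) (q : Q) : mrun δ q u = mrun δ q v := by
  have h1 := h (q, 1)
  rw [mrun_vaut, mrun_vaut] at h1
  have e1 : (mrun δ q u).1 = (mrun δ q v).1 := congrArg (fun z => z.1.1) h1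
  have e2 : (1 : G ⧸ N) * ((mrun δ q u).2.1 : G ⧸ N) = 1 * ((mrun δ q v).2.1 : G ⧸ N) :=
    congrArg (fun z => z.1.2) h1
  have e3 : rep N 1 * (mrun δ q u).2.1 * (rep N (1 * ((mrun δ q u).2.1 : G ⧸ N)))⁻¹ =
      rep N 1 * (mrun δ q v).2.1 * (rep N (1 * ((mrun δ q v).2.1 : G ⧸ N)))⁻¹ :=
    congrArg (fun z => (z.2.1 : G)) h1
  have e4 : (mrun δ q u).2.2 = (mrun δ q v).2.2 := congrArg (fun z => z.2.2) h1
  rw [e2] at e3
  have e5 : (mrun δ q u).2.1 = (mrun δ q v).2.1 :=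
    mul_left_cancel (mul_right_cancel e3)
  exact Prod.ext e1 (Prod.ext e5 e4)

end Coset

/-- A virtually nilpotent group has a normal nilpotent subgroup of finite index. -/
theorem virt_normal {G : Type} [Group G] (h : Group.IsVirtuallyNilpotent G) :
    ∃ N : Subgroup G, N.Normal ∧ Group.IsNilpotent N ∧ N.FiniteIndex := by
  obtain ⟨H, hH, hf⟩ := h
  have hle : H.normalCore ≤ H := H.normalCore_le
  refine ⟨H.normalCore, H.normalCore_normal, ?_, inferInstance⟩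
  have h1 : Group.IsNilpotent (H.normalCore.subgroupOf H) := inferInstance
  exact (Group.isNilpotent_congr (Subgroup.subgroupOfEquivOfLe hle)).1 h1

section Main

variable {Q G B Q' G' B' : Type} [Group G] [CommMonoid B] [Group G'] [CommMonoid B']

/-- Words in arithmetic progression which neither automaton can tell apart. -/
theorem virt_words {b : ℕ} (hb : 2 ≤ b) [Finite Q] [Finite Q']
    (hG : Group.IsVirtuallyNilpotent G) (hG' : Group.IsVirtuallyNilpotent G')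
    (δ : Q → ℕ → Q × (G × B)) (δ' : Q' → ℕ → Q' × (G' × B')) {k : ℕ} (hk : 1 ≤ k) :
    ∃ (w : ℕ → List ℕ) (D m : ℕ), 0 < D ∧ 0 < m ∧ 0 < Nat.ofDigits b (w 0) ∧
      ∀ j < k, Dig b (w j) ∧ (w j).length = m ∧ (w j).getLast? = some 1 ∧
        nrel δ δ' (w 0) (w j) ∧
        Nat.ofDigits b (w j) = Nat.ofDigits b (w 0) + j * D := by
  obtain ⟨N, hN, hNn, hNf⟩ := virt_normal hG
  obtain ⟨N', hN', hNn', hNf'⟩ := virt_normal hG'
  have hf : Finite (G ⧸ N) := Subgroup.finite_quotient_of_finiteIndex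
  have hf' : Finite (G' ⧸ N') := Subgroup.finite_quotient_of_finiteIndex
  obtain ⟨w, D, m, h1, h2, h3, h4⟩ := nil_words (k := k) hb (vaut N δ) (vaut N' δ') hk
  exact ⟨w, D, m, h1, h2, h3, fun j hj => ⟨(h4 j hj).1, (h4 j hj).2.1, (h4 j hj).2.2.1,
    ⟨vaut_eq N (h4 j hj).2.2.2.1.1, vaut_eq N' (h4 j hj).2.2.2.1.2⟩, (h4 j hj).2.2.2.2⟩⟩

/-- Words which neither automaton can tell apart and whose values differ by `g * c ^ j`. -/
theorem virt_poly_words {b : ℕ} (hb : 2 ≤ b) [Finite Q] [Finite Q']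
    (hG : Group.IsVirtuallyNilpotent G) (hG' : Group.IsVirtuallyNilpotent G')
    (δ : Q → ℕ → Q × (G × B)) (δ' : Q' → ℕ → Q' × (G' × B')) (d g₀ M : ℕ) :
    ∃ c L : ℕ, M ≤ c ∧ 0 < L ∧ ∀ j, 1 ≤ j → j ≤ d → ∀ g ≤ g₀, ∃ u v : List ℕ,
      Dig b u ∧ Dig b v ∧ u.length = L ∧ v.length = L ∧ u.getLast? = some 1 ∧
      v.getLast? = some 1 ∧ nrel δ δ' u v ∧
      Nat.ofDigits b v = Nat.ofDigits b u + g * c ^ j := by
  obtain ⟨N, hN, hNn, hNf⟩ := virt_normal hG
  obtain ⟨N', hN', hNn', hNf'⟩ := virt_normal hG'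
  have hf : Finite (G ⧸ N) := Subgroup.finite_quotient_of_finiteIndex
  have hf' : Finite (G' ⧸ N') := Subgroup.finite_quotient_of_finiteIndex
  obtain ⟨c, L, h1, h2, h3⟩ := nil_poly_words hb (vaut N δ) (vaut N' δ') d g₀ M
  refine ⟨c, L, h1, h2, fun j hj hjd g hg => ?_⟩
  obtain ⟨u, v, a1, a2, a3, a4, a5, a6, a7, a8⟩ := h3 j hj hjd g hg
  exact ⟨u, v, a1, a2, a3, a4, a5, a6, ⟨vaut_eq N a7.1, vaut_eq N' a7.2⟩, a8⟩

end Main

end Vale.Agent.P057.R3.H664
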