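import Vale.Agent.P057.R3.H380.Defs

set_option autoImplicit false

/-!
P057, digit statistics, row MR: integer matrices all of whose products have entries of polynomial
size generate an algebra in which the products lie in finitely many classes modulo a nilpotent
ideal.
-/

namespace Vale.Agent.P057.R3.H664

open Vale.Agent.P057.H380

/-- ROW (MR), from rows TB, TN, NI. -/
theorem mat_ring_of
    (TB : ∀ {n : ℕ} (A : Matrix (Fin n) (Fin n) ℤ) (C c : ℕ),
      (∀ (k : ℕ) (i j : Fin n), |(A ^ k) i j| ≤ C * ((k : ℤ) + 1) ^ c) → |A.trace| ≤ n)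
    (TN : ∀ {n : ℕ} (A : Matrix (Fin n) (Fin n) ℚ),
      (∀ k : ℕ, 1 ≤ k → (A ^ k).trace = 0) → IsNilpotent A)
    (NI : ∀ {R : Type} [Ring R] [Algebra ℚ R] [Module.Finite ℚ R] (I : Ideal R) [I.IsTwoSided],
      (∀ z ∈ I, IsNilpotent z) → ∃ d : ℕ, I ^ d = ⊥)
    {n b : ℕ} (M : ℕ → Matrix (Fin n) (Fin n) ℤ) (C c : ℕ)
    (h : ∀ w : List ℕ, Dig b w → ∀ i j : Fin n,
      |(w.map M).prod i j| ≤ C * ((w.length : ℤ) + 1) ^ c) :
    ∃ (R : Type) (_ : Ring R) (I : Ideal R) (_ : I.IsTwoSided) (x : ℕ → R),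
      (∃ d : ℕ, I ^ d = ⊥) ∧
      (∃ T : Set R, T.Finite ∧ ∀ w : List ℕ, Dig b w → ∃ t ∈ T, (w.map x).prod - t ∈ I) ∧
      ∀ u v : List ℕ, Dig b u → Dig b v → (u.map x).prod = (v.map x).prod →
        (u.map M).prod = (v.map M).prod := by
  classical
  let φ : Matrix (Fin n) (Fin n) ℤ →+* Matrix (Fin n) (Fin n) ℚ := (Int.castRingHom ℚ).mapMatrix
  have hφt : ∀ N : Matrix (Fin n) (Fin n) ℤ, (φ N).trace = ((N.trace : ℤ) : ℚ) := by
    intro N
    simp [φ, Matrix.trace]
  have hφi : Function.Injective φ := by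
    intro N N' hN
    ext i j
    have h1 := congrFun (congrFun hN i) j
    simpa [φ] using h1
  let A : Subalgebra ℚ (Matrix (Fin n) (Fin n) ℚ) :=
    Algebra.adjoin ℚ ((fun d => φ (M d)) '' {d | d < b})
  let x : ℕ → A := fun d =>
    if hd : d < b then ⟨φ (M d), Algebra.subset_adjoin ⟨d, hd, rfl⟩⟩ else 0
  have hx : ∀ w : List ℕ, Dig b w →
      (((w.map x).prod : A) : Matrix (Fin n) (Fin n) ℚ) = φ ((w.map M).prod) := by
    intro w
    induction w with
    | nil => intro _; simp
    | cons d w ih =>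
      intro hw
      have hd : d < b := hw d (by simp)
      have hw' : Dig b w := fun z hz => hw z (by simp [hz])
      have e1 : ((x d : A) : Matrix (Fin n) (Fin n) ℚ) = φ (M d) := by
        simp only [x, dif_pos hd]
      rw [List.map_cons, List.prod_cons, List.map_cons, List.prod_cons, map_mul, ← ih hw', ← e1]
      rfl
  have hnilD : Dig b [] := by
    intro z hz
    cases hz
  -- the ideal
  let I : Ideal A :=
    { carrier := {z | ∀ y : A, ((z * y : A) : Matrix (Fin n) (Fin n) ℚ).trace = 0}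
      add_mem' := by
        intro a a' ha ha' y
        rw [add_mul]
        change ((a * y : A) + (a' * y : A) : Matrix (Fin n) (Fin n) ℚ).trace = 0
        rw [Matrix.trace_add, ha y, ha' y, add_zero]
      zero_mem' := by
        intro y
        rw [zero_mul]
        exact Matrix.trace_zero _ _
      smul_mem' := by
        intro r z hz y
        change ((r : Matrix (Fin n) (Fin n) ℚ) * z * y).trace = 0
        rw [mul_assoc, Matrix.trace_mul_comm, mul_assoc]
        exact hz (y * r) }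
  have hI2 : I.IsTwoSided := ⟨fun {a} r ha y => by
    rw [mul_assoc]
    exact ha (r * y)⟩
  have hmem : ∀ z : A, z ∈ I ↔ ∀ y : A, ((z * y : A) : Matrix (Fin n) (Fin n) ℚ).trace = 0 :=
    fun z => Iff.rfl
  have hnil : ∀ z ∈ I, IsNilpotent z := by
    intro z hz
    have h1 : IsNilpotent (z : Matrix (Fin n) (Fin n) ℚ) := by
      refine TN _ fun k hk => ?_
      obtain ⟨m, rfl⟩ : ∃ m, k = m + 1 := ⟨k - 1, by omega⟩
      have h2 := hz (z ^ m)
      rw [← pow_succ'] at h2
      exact h2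
    obtain ⟨m, hm⟩ := h1
    exact ⟨m, Subtype.ext hm⟩
  -- words span
  let W : Set A := {y | ∃ w, Dig b w ∧ (w.map x).prod = y}
  have hW : Submodule.span ℚ W = ⊤ := by
    rw [eq_top_iff]
    rintro ⟨y, hy⟩ -
    induction hy using Algebra.adjoin_induction with
    | mem y hy =>
      obtain ⟨d, hd, rfl⟩ := hy
      refine Submodule.subset_span ⟨[d], fun z hz => ?_, ?_⟩
      · rw [List.mem_singleton.1 hz]
        exact hd
      · have hd' : d < b := hd
        simp [x, hd']
    | algebraMap r =>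
      have h1 : (⟨algebraMap ℚ (Matrix (Fin n) (Fin n) ℚ) r, A.algebraMap_mem r⟩ : A) =
          r • (([] : List ℕ).map x).prod := by
        apply Subtype.ext
        simp [Algebra.algebraMap_eq_smul_one]
      rw [h1]
      exact Submodule.smul_mem _ _ (Submodule.subset_span ⟨[], hnilD, rfl⟩)
    | add y z hy hz h1 h2 => exact Submodule.add_mem _ h1 h2
    | mul y z hy hz h1 h2 =>
      have h3 : (⟨y, hy⟩ : A) * ⟨z, hz⟩ ∈ Submodule.span ℚ W * Submodule.span ℚ W :=
        Submodule.mul_mem_mul h1 h2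
      rw [Submodule.span_mul_span] at h3
      refine Submodule.span_mono ?_ h3
      rintro _ ⟨_, ⟨u, hu, rfl⟩, _, ⟨v, hv, rfl⟩, rfl⟩
      refine ⟨u ++ v, fun z hz => ?_, by simp⟩
      rcases List.mem_append.1 hz with hz | hz
      · exact hu z hz
      · exact hv z hz
  obtain ⟨Bs, hBs, hspan, hli⟩ := exists_linearIndependent ℚ W
  have hfin : Bs.Finite := hli.setFinite
  have hfinT : Finite Bs := hfin.to_subtype
  have hwd : ∀ y : Bs, ∃ w, Dig b w ∧ (w.map x).prod = y.1 := fun y => hBs y.2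
  choose wd hwdd hwdx using hwd
  let D : Type := {w : List ℕ // Dig b w}
  have hDne : Nonempty D := ⟨⟨[], hnilD⟩⟩
  have happ : ∀ {u v : List ℕ}, Dig b u → Dig b v → Dig b (u ++ v) := by
    intro u v hu hv z hz
    rcases List.mem_append.1 hz with hz | hz
    · exact hu z hz
    · exact hv z hz
  let g : D → (Bs → ℤ) := fun w y => ((w.1 ++ wd y).map M).prod.trace
  have hpow : ∀ (w : List ℕ) (k : ℕ), Dig b w → ∃ w', Dig b w' ∧ w'.length = k * w.length ∧
      (w'.map M).prod = (w.map M).prod ^ k := by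
    intro w k hw
    induction k with
    | zero => exact ⟨[], hnilD, by simp, by simp⟩
    | succ k ih =>
      obtain ⟨w', h1, h2, h3⟩ := ih
      refine ⟨w' ++ w, happ h1 hw, ?_, ?_⟩
      · rw [List.length_append, h2]
        ring
      · rw [List.map_append, List.prod_append, h3, pow_succ]
  have htr : ∀ w : List ℕ, Dig b w → |((w.map M).prod).trace| ≤ n := by
    intro w hw
    refine TB _ (C * (w.length + 1) ^ c) c fun k i j => ?_
    obtain ⟨w', h1, h2, h3⟩ := hpow w k hw
    rw [← h3]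
    refine (h w' h1 i j).trans ?_
    rw [h2]
    push_cast
    rw [mul_assoc, ← mul_pow]
    have h4 : ((k : ℤ) * w.length + 1) ≤ ((w.length : ℤ) + 1) * (k + 1) := by nlinarith
    have h5 : (0 : ℤ) ≤ (k : ℤ) * w.length + 1 := by positivity
    gcongr
  have hgfin : (Set.range g).Finite := by
    have h1 : {f : Bs → ℤ | ∀ y, f y ∈ Set.Icc (-(n : ℤ)) n}.Finite :=
      Set.Finite.pi' fun _ => Set.finite_Icc _ _
    refine h1.subset ?_
    rintro _ ⟨w, rfl⟩ y
    exact abs_le.1 (htr _ (happ w.2 (hwdd y)))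
  have hgI : ∀ w w' : D, g w = g w' → (w.1.map x).prod - (w'.1.map x).prod ∈ I := by
    intro w w' hg
    rw [hmem]
    intro y
    have hy : y ∈ Submodule.span ℚ Bs := by
      rw [hspan, hW]
      exact Submodule.mem_top
    induction hy using Submodule.span_induction with
    | mem y hy =>
      have e1 := hwdx ⟨y, hy⟩
      have e2 := congrFun hg ⟨y, hy⟩
      have e3 : ((((w.1.map x).prod - (w'.1.map x).prod) * y : A) :
          Matrix (Fin n) (Fin n) ℚ) = φ (((w.1 ++ wd ⟨y, hy⟩).map M).prod) -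
            φ (((w'.1 ++ wd ⟨y, hy⟩).map M).prod) := by
        rw [← hx _ (happ w.2 (hwdd _)), ← hx _ (happ w'.2 (hwdd _)), List.map_append,
          List.prod_append, List.map_append, List.prod_append, e1, sub_mul]
        rfl
      rw [e3, Matrix.trace_sub, hφt, hφt]
      have e4 : ((w.1 ++ wd ⟨y, hy⟩).map M).prod.trace =
        ((w'.1 ++ wd ⟨y, hy⟩).map M).prod.trace := e2
      rw [e4, sub_self]
    | zero =>
      rw [mul_zero]
      exact Matrix.trace_zero _ _
    | add y z _ _ h1 h2 =>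
      rw [mul_add]
      change (((_ * y : A) : Matrix (Fin n) (Fin n) ℚ) + ((_ * z : A) : Matrix _ _ ℚ)).trace = 0
      rw [Matrix.trace_add, h1, h2, add_zero]
    | smul r y _ h1 =>
      rw [mul_smul_comm]
      change (r • ((_ * y : A) : Matrix (Fin n) (Fin n) ℚ)).trace = 0
      rw [Matrix.trace_smul, h1, smul_zero]
  refine ⟨A, inferInstance, I, hI2, x, NI I hnil,
    ⟨(fun τ => (((Function.invFun g τ).1).map x).prod) '' Set.range g, hgfin.image _,
      fun w hw => ⟨_, ⟨g ⟨w, hw⟩, ⟨⟨w, hw⟩, rfl⟩, rfl⟩, ?_⟩⟩, fun u v hu hv huv => ?_⟩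
  · exact hgI ⟨w, hw⟩ (Function.invFun g (g ⟨w, hw⟩))
      (Function.invFun_eq (f := g) (b := g ⟨w, hw⟩) ⟨⟨w, hw⟩, rfl⟩).symm
  · apply hφi
    rw [← hx u hu, ← hx v hv, huv]

end Vale.Agent.P057.R3.H664
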