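import Vale.Agent.P057.R3.H664.NilAut

set_option autoImplicit false

/-!
P057 and P042, digit statistics: equivalent words in arithmetic progression, uniformly in the
length of the progression, and equivalent words whose values differ by `g * c ^ j` with one `c`
for all `j ≤ d`, `g ≤ G`.
-/

namespace Vale.Agent.P057.R3.H664

open Vale.Agent.P057.H380

theorem pw_val' (b : ℕ) (hb : 2 ≤ b) (e : List ℕ) (l N : ℕ) :
    ∃ c K : ℕ, (1 ≤ N → 0 < K) ∧
      K * b ^ (2 * e.length + l) + b ^ e.length = b ^ e.length * b ^ (N * (2 * e.length + l)) + K ∧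
      ∀ u : List ℕ, u.length = l → Nat.ofDigits b (pw e N u) = c + K * Nat.ofDigits b u := by
  induction N with
  | zero =>
    refine ⟨0, 0, fun h => absurd h (by omega), by simp, fun u _ => ?_⟩
    rw [pw_zero, Nat.ofDigits_nil]
    ring
  | succ N ih =>
    obtain ⟨c, K, -, hK, h⟩ := ih
    refine ⟨Nat.ofDigits b e + b ^ (e.length + l) * Nat.ofDigits b e +
      b ^ (e.length + l + e.length) * c,
      b ^ e.length + b ^ (e.length + l + e.length) * K, fun _ => by positivity, ?_,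
      fun u hu => ?_⟩
    · have e1 : e.length + l + e.length = 2 * e.length + l := by ring
      have e2 : b ^ ((N + 1) * (2 * e.length + l)) =
          b ^ (2 * e.length + l) * b ^ (N * (2 * e.length + l)) := by
        rw [← pow_add]
        congr 1
        ring
      rw [e1, e2]
      calc (b ^ e.length + b ^ (2 * e.length + l) * K) * b ^ (2 * e.length + l) + b ^ e.length
          = b ^ (2 * e.length + l) * (K * b ^ (2 * e.length + l) + b ^ e.length) +
            b ^ e.length := by ring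
        _ = _ := by rw [hK]; ring
    · rw [pw_succ, Nat.ofDigits_append, Nat.ofDigits_append, Nat.ofDigits_append, h u hu]
      simp only [List.length_append, hu]
      ring

theorem cat_val3 (b l L : ℕ) : ∃ T : ℕ, (0 < L → 0 < T) ∧ T * b ^ l + 1 = b ^ (L * l) + T ∧
    ∀ (F G : ℕ → List ℕ) (d : ℕ),
    (∀ n, (F n).length = l) → (∀ n, (G n).length = l) →
    (∀ n, Nat.ofDigits b (G n) = Nat.ofDigits b (F n) + d) →
    ∀ n, Nat.ofDigits b (cat G L n) = Nat.ofDigits b (cat F L n) + d * T := by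
  induction L with
  | zero => exact ⟨0, fun h => absurd h (lt_irrefl 0), by simp, fun F G d _ _ _ n => by
      simp only [cat, mul_zero, Nat.add_zero]⟩
  | succ L ih =>
    obtain ⟨T, -, hT, h⟩ := ih
    refine ⟨1 + b ^ l * T, fun _ => by positivity, ?_, fun F G d hF hG hv n => ?_⟩
    · have e2 : b ^ ((L + 1) * l) = b ^ l * b ^ (L * l) := by
        rw [← pow_add]
        congr 1
        ring
      rw [e2]
      calc (1 + b ^ l * T) * b ^ l + 1 = b ^ l * (T * b ^ l + 1) + 1 := by ring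
        _ = _ := by rw [hT]; ring
    · have h1 : cat F (L + 1) n = F n ++ cat F L (n + 1) := rfl
      have h2 : cat G (L + 1) n = G n ++ cat G L (n + 1) := rfl
      rw [h1, h2, Nat.ofDigits_append, Nat.ofDigits_append, hF, hG, h F G d hF hG hv, hv]
      ring

theorem itp_val3 (b l : ℕ) {L : ℕ} (hL : 0 < L) (i : ℕ) : ∃ T : ℕ, 0 < T ∧
    T * b ^ l + 1 = b ^ (L ^ i * l) + T ∧
    ∀ (y z : ℕ → List ℕ) (d : ℕ), (∀ n, (y n).length = l) → (∀ n, (z n).length = l) →
    (∀ n, Nat.ofDigits b (z n) = Nat.ofDigits b (y n) + d) →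
    ∀ n, Nat.ofDigits b (itp L z i n) = Nat.ofDigits b (itp L y i n) + d * T := by
  induction i with
  | zero => exact ⟨1, one_pos, by rw [pow_zero, one_mul, one_mul], fun y z d _ _ hv n => by
      rw [mul_one]; exact hv n⟩
  | succ i ih =>
    obtain ⟨T, hT, hTe, h⟩ := ih
    obtain ⟨T', hT', hTe', h'⟩ := cat_val3 b (L ^ i * l) L
    refine ⟨T * T', Nat.mul_pos hT (hT' hL), ?_, fun y z d hy hz hv n => ?_⟩
    · have e2 : b ^ (L ^ (i + 1) * l) = b ^ (L * (L ^ i * l)) := by
        congr 1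
        ring
      rw [e2]
      have h3 : T * T' * b ^ l + 1 + T' = b ^ (L * (L ^ i * l)) + T * T' + T' := by
        calc T * T' * b ^ l + 1 + T' = T' * (T * b ^ l + 1) + 1 := by ring
          _ = T' * b ^ (L ^ i * l) + 1 + T * T' := by rw [hTe]; ring
          _ = _ := by rw [hTe']; ring
      omega
    · have h1 : itp L z (i + 1) n = cat (itp L z i) L n := rfl
      have h2 : itp L y (i + 1) n = cat (itp L y i) L n := rfl
      rw [h1, h2, h' (itp L y i) (itp L z i) (d * T) (itp_length hy L i) (itp_length hz L i)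
        (h y z d hy hz hv) n]
      ring

/-- Equivalent words in arithmetic progression, uniformly: `l₀` does not depend on `k`. -/
theorem words_uniform {b : ℕ} (hb : 2 ≤ b) {C : ℕ → List ℕ → List ℕ → Prop} {S : Set (List ℕ)}
    {c : ℕ} (H : Chain C S c) {e : List ℕ} (he : Dig b e) {N : ℕ} (hN : 1 ≤ N)
    (hP : ∀ u : List ℕ, Dig b u → pw e N u ∈ S) :
    ∃ E l₀ : ℕ, ∀ k : ℕ, ∃ (w : ℕ → List ℕ) (D m : ℕ), 0 < D ∧ 0 < m ∧ (k + l₀) ∣ m ∧
      D * b ^ (k + l₀) + b ^ E = b ^ E * b ^ m + D ∧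
      ∀ j ≤ b ^ k, Dig b (w j) ∧ (w j).length = m ∧ C 0 (w 0) (w j) ∧
        Nat.ofDigits b (w j) = Nat.ofDigits b (w 0) + j * D := by
  have hr := H.cong 0
  have hd0 : Dig b [0] := by
    intro d hd
    rw [List.mem_singleton.1 hd]
    omega
  have hd1 : Dig b [1] := by
    intro d hd
    rw [List.mem_singleton.1 hd]
    omega
  have happ : ∀ {x y : List ℕ}, Dig b x → Dig b y → Dig b (x ++ y) := by
    intro x y hx hy d hd
    rcases List.mem_append.1 hd with h | h
    · exact hx d h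
    · exact hy d h
  obtain ⟨g, g', hg, hg', hlen, hgl, hlt, hgr⟩ : ∃ g g' : List ℕ, Dig b g ∧ Dig b g' ∧
      g.length = g'.length ∧ 0 < g.length ∧ Nat.ofDigits b g < Nat.ofDigits b g' ∧
      C 0 g g' := by
    obtain ⟨c₁, K, hK, hv⟩ := pw_val b hb e 1 N
    have e0 := hv [0] rfl
    have e1 := hv [1] rfl
    have hl : 0 < (pw e N [0]).length := by
      rw [pw_length]
      simp only [List.length_singleton]
      positivity
    obtain ⟨x, y, -, -, h3, h4, h5, h6, h7, h8⟩ := exists_pair hb H (hP _ hd0) (hP _ hd1)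
      (pw_dig he hd0 N) (pw_dig he hd1 N) (by rw [pw_length, pw_length]; rfl) hl (by
        rw [e0, e1]
        simp only [Nat.ofDigits_singleton, mul_zero, mul_one, Nat.add_zero]
        have := hK hN
        omega) c 0 (Nat.add_zero c)
    exact ⟨x, y, h3, h4, h5, h6, h7, h8⟩
  refine ⟨e.length, g.length + 2 * e.length, fun k => ?_⟩
  set G := Nat.ofDigits b g with hG
  set G' := Nat.ofDigits b g' with hG'
  set m₁ := g.length with hm1
  have hG'lt : G' < b ^ m₁ := by
    rw [hlen]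
    exact Nat.ofDigits_lt_base_pow_length (by omega) hg'
  have hkb : k < b ^ k := Nat.lt_pow_self (by omega)
  have hbk : 0 < b ^ k := by positivity
  obtain ⟨L, hL⟩ : ∃ L, (G' - G) * b ^ k = L + 1 := by
    have : 0 < (G' - G) * b ^ k := Nat.mul_pos (by omega) hbk
    exact ⟨(G' - G) * b ^ k - 1, by omega⟩
  have hLe : G * b ^ k + (L + 1) = G' * b ^ k := by
    rw [← hL, ← Nat.add_mul]
    congr 1
    omega
  have hwd : ∀ (x : List ℕ) (j : ℕ), Dig b x → x.length = m₁ → j < b ^ k →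
      pad b (k + m₁) (Nat.ofDigits b x * b ^ k + j) = pad b k j ++ x := by
    intro x j hx hxl hj
    have h1 := eq_pad hb (L := k + m₁) (happ (pad_dig hb k j) hx)
      (by rw [List.length_append, pad_length, hxl])
    rw [Nat.ofDigits_append, pad_length, pad_val hb k j hj] at h1
    rw [← h1]
    congr 1
    ring
  obtain ⟨c₁, K, hK, hKe, hv⟩ := pw_val' b hb e (k + m₁) N
  set F : ℕ → List ℕ := fun n => pw e N (pad b (k + m₁) n) with hF
  have hFd : ∀ n, Dig b (F n) := fun n => pw_dig he (pad_dig hb _ n) N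
  have hFl : ∀ n, (F n).length = N * (2 * e.length + (k + m₁)) := by
    intro n
    simp only [hF]
    rw [pw_length, pad_length]
  have hFv : ∀ n < b ^ (k + m₁), Nat.ofDigits b (F n) = c₁ + K * n := by
    intro n hn
    simp only [hF]
    rw [hv _ (pad_length b _ n), pad_val hb _ n hn]
  have hFS : ∀ n, F n ∈ S := fun n => hP _ (pad_dig hb _ n)
  have hFr : ∀ j < b ^ k, C 0 (F (G * b ^ k + j)) (F (G * b ^ k + j + (L + 1))) := by
    intro j hj
    have h1 : G * b ^ k + j + (L + 1) = G' * b ^ k + j := by omega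
    rw [h1]
    simp only [hF]
    rw [hwd g j hg rfl hj, hwd g' j hg' hlen.symm hj]
    exact pw_congr hr e (hr.app (hr.eqv.refl _) hgr) N
  set y : ℕ → ℕ → List ℕ := fun j n => F (G * b ^ k + j + n % (L + 1)) with hy
  have hyS : ∀ j n, y j n ∈ S := fun j n => hFS _
  have hyp : ∀ j n, y j (n + (L + 1)) = y j n := by
    intro j n
    simp only [hy, Nat.add_mod_right]
  have hbd : ∀ j ≤ b ^ k, G * b ^ k + j + (L + 1) ≤ b ^ (k + m₁) := by
    intro j hj
    have h1 : (G' + 1) * b ^ k ≤ b ^ m₁ * b ^ k := Nat.mul_le_mul_right _ (by omega)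
    have h2 : b ^ (k + m₁) = b ^ m₁ * b ^ k := by rw [pow_add]; ring
    have h3 : (G' + 1) * b ^ k = G' * b ^ k + b ^ k := by ring
    omega
  obtain ⟨T, hT, hTe, hval⟩ :=
    itp_val3 b (N * (2 * e.length + (k + m₁))) (Nat.succ_pos L) c
  have hstep : ∀ j < b ^ k, C 0 (itp (L + 1) (y j) c 0) (itp (L + 1) (y (j + 1)) c 0) := by
    intro j hj
    have h1 : ∀ n, C 0 ((fun n => y j (n + 1)) n) (y (j + 1) n) := by
      intro n
      simp only [hy]
      have hlt1 : n % (L + 1) < L + 1 := Nat.mod_lt _ (Nat.succ_pos L)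
      rcases Nat.lt_or_ge (n % (L + 1)) L with h | h
      · have e1 : (n + 1) % (L + 1) = n % (L + 1) + 1 := by
          rw [Nat.add_mod]
          rcases Nat.eq_zero_or_pos L with h0 | h0
          · omega
          · rw [Nat.mod_eq_of_lt (show 1 < L + 1 by omega), Nat.mod_eq_of_lt (by omega)]
        have e2 : G * b ^ k + j + (n % (L + 1) + 1) = G * b ^ k + (j + 1) + n % (L + 1) := by ring
        rw [e1, e2]
        exact hr.eqv.refl _
      · have e0 : n % (L + 1) = L := by omega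
        have e1 : (n + 1) % (L + 1) = 0 := by
          rw [Nat.add_mod, e0]
          rcases Nat.eq_zero_or_pos L with h0 | h0
          · rw [h0]
          · rw [Nat.mod_eq_of_lt (show 1 < L + 1 by omega), Nat.mod_self]
        have e2 : G * b ^ k + (j + 1) + L = G * b ^ k + j + (L + 1) := by ring
        rw [e1, e0, e2, Nat.add_zero]
        exact hFr j hj
    have h2 : C 0 (itp (L + 1) (y j) c 0) (itp (L + 1) (y j) c 1) :=
      (itp_lev H (hyS j) (hyp j) c 0 (Nat.add_zero c)).2 0 1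
    have h3 : itp (L + 1) (y j) c (0 + 1) = itp (L + 1) (fun n => y j (n + 1)) c 0 :=
      itp_shift (L + 1) (fun n => rfl) c 0
    rw [Nat.zero_add] at h3
    rw [h3] at h2
    exact hr.eqv.trans h2 (itp_rel hr h1 (L + 1) c 0)
  have hrel : ∀ j, j ≤ b ^ k → C 0 (itp (L + 1) (y 0) c 0) (itp (L + 1) (y j) c 0) := by
    intro j
    induction j with
    | zero => intro _; exact hr.eqv.refl _
    | succ j ih => intro hj; exact hr.eqv.trans (ih (by omega)) (hstep j (by omega))
  have hyl : ∀ j n, (y j n).length = N * (2 * e.length + (k + m₁)) := fun j n => hFl _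
  have hX : 2 * e.length + (k + m₁) = k + (m₁ + 2 * e.length) := by ring
  refine ⟨fun j => itp (L + 1) (y j) c 0, K * T,
    (L + 1) ^ c * (N * (2 * e.length + (k + m₁))), Nat.mul_pos (hK hN) hT, by positivity,
    ⟨(L + 1) ^ c * N, by rw [hX]; ring⟩, ?_, fun j hjb => ?_⟩
  · rw [← hX]
    set X := b ^ (2 * e.length + (k + m₁)) with hXd
    set Y := b ^ (N * (2 * e.length + (k + m₁))) with hYd
    set Z := b ^ ((L + 1) ^ c * (N * (2 * e.length + (k + m₁)))) with hZd
    have h3 : K * T * X + b ^ e.length + (T * b ^ e.length + K * T) =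
        b ^ e.length * Z + K * T + (T * b ^ e.length + K * T) := by
      calc K * T * X + b ^ e.length + (T * b ^ e.length + K * T)
          = T * (K * X + b ^ e.length) + b ^ e.length + K * T := by ring
        _ = T * (b ^ e.length * Y + K) + b ^ e.length + K * T := by rw [hKe]
        _ = b ^ e.length * (T * Y + 1) + 2 * (K * T) := by ring
        _ = b ^ e.length * (Z + T) + 2 * (K * T) := by rw [hTe]
        _ = _ := by ring
    exact Nat.add_right_cancel h3
  · have hvj : ∀ n, Nat.ofDigits b (y j n) = Nat.ofDigits b (y 0 n) + K * j := by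
      intro n
      have hlt1 : n % (L + 1) < L + 1 := Nat.mod_lt _ (Nat.succ_pos L)
      have h1 := hbd j hjb
      have h2 := hbd 0 (Nat.zero_le _)
      simp only [hy]
      rw [hFv _ (by omega), hFv _ (by omega)]
      ring
    refine ⟨itp_dig (fun n => hFd _) _ _ _, itp_length (hyl j) _ _ _, hrel j hjb, ?_⟩
    simp only
    rw [hval (y 0) (y j) (K * j) (hyl 0) (hyl j) hvj 0]
    ring

/-- Coefficients of `(x - 1) ^ j * R`, positive and negative parts. -/
theorem binom_coeffs (x R : ℕ) (hx : 1 ≤ x) (j : ℕ) : ∃ f f' : ℕ → ℕ,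
    (∀ i, f i ≤ 2 ^ j * R ∧ f' i ≤ 2 ^ j * R) ∧ (∀ i, j < i → f i = 0 ∧ f' i = 0) ∧
    ∀ n, j < n → ∑ i ∈ Finset.range n, x ^ i * f' i =
      ∑ i ∈ Finset.range n, x ^ i * f i + (x - 1) ^ j * R := by
  induction j with
  | zero =>
    refine ⟨fun _ => 0, fun i => if i = 0 then R else 0, fun i => ⟨Nat.zero_le _, ?_⟩,
      fun i hi => ⟨rfl, if_neg (by omega)⟩, fun n hn => ?_⟩
    · simp only [pow_zero, one_mul]
      split_ifs <;> omega
    · obtain ⟨n, rfl⟩ : ∃ n', n = n' + 1 := ⟨n - 1, by omega⟩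
      rw [Finset.sum_range_succ']
      simp
  | succ j ih =>
    obtain ⟨f, f', h1, h2, h3⟩ := ih
    refine ⟨fun i => if i = 0 then f' 0 else f' i + f (i - 1),
      fun i => if i = 0 then f 0 else f i + f' (i - 1), fun i => ?_, fun i hi => ?_,
      fun n hn => ?_⟩
    · have e1 := h1 i
      have e2 := h1 (i - 1)
      have e3 : 2 ^ (j + 1) * R = 2 ^ j * R + 2 ^ j * R := by ring
      have e4 := h1 0
      constructor <;> · dsimp only; split_ifs <;> omega
    · have e1 := h2 i (by omega)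
      have e2 := h2 (i - 1) (by omega)
      have e3 : i ≠ 0 := by omega
      simp only [if_neg e3, e1.1, e1.2, e2.1, e2.2]
      exact ⟨trivial, trivial⟩
    · obtain ⟨n, rfl⟩ : ∃ n', n = n' + 1 := ⟨n - 1, by omega⟩
      have key : ∀ a c : ℕ → ℕ, ∑ i ∈ Finset.range (n + 1),
          x ^ i * (if i = 0 then a 0 else a i + c (i - 1)) =
          ∑ i ∈ Finset.range (n + 1), x ^ i * a i + x * ∑ i ∈ Finset.range n, x ^ i * c i := by
        intro a c
        rw [Finset.sum_range_succ', Finset.sum_range_succ' (fun i => x ^ i * a i), Finset.mul_sum]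
        simp only [Nat.add_eq_zero_iff, one_ne_zero, and_false, if_false, if_true,
          Nat.add_sub_cancel]
        have : ∀ i ∈ Finset.range n, x ^ (i + 1) * (a (i + 1) + c i) =
            x ^ (i + 1) * a (i + 1) + x * (x ^ i * c i) := fun i _ => by ring
        rw [Finset.sum_congr rfl this, Finset.sum_add_distrib]
        ring
      rw [key f f', key f' f, h3 n (by omega), h3 (n + 1) (by omega)]
      obtain ⟨z, rfl⟩ : ∃ z, x = z + 1 := ⟨x - 1, by omega⟩
      simp only [Nat.add_sub_cancel]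
      ring

theorem cat_rel' {r : List ℕ → List ℕ → Prop} (hr : Cong r) {w : ℕ → List ℕ} {M : ℕ}
    (h : ∀ j ≤ M, r (w 0) (w j)) {f f' : ℕ → ℕ} (hf : ∀ i, f i ≤ M) (hf' : ∀ i, f' i ≤ M)
    (L : ℕ) : ∀ n, r (cat (fun i => w (f i)) L n) (cat (fun i => w (f' i)) L n) := by
  induction L with
  | zero => intro n; exact hr.eqv.refl _
  | succ L ih =>
    intro n
    exact hr.app (hr.eqv.trans (hr.eqv.symm (h _ (hf n))) (h _ (hf' n))) (ih (n + 1))

theorem cat_sum {b : ℕ} {w : ℕ → List ℕ} {M D m v : ℕ}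
    (hw : ∀ j ≤ M, (w j).length = m ∧ Nat.ofDigits b (w j) = v + j * D) {f : ℕ → ℕ}
    (hf : ∀ i, f i ≤ M) (L : ℕ) :
    (cat (fun i => w (f i)) L 0).length = L * m ∧
    Nat.ofDigits b (cat (fun i => w (f i)) L 0) =
      ∑ i ∈ Finset.range L, (b ^ m) ^ i * v + D * ∑ i ∈ Finset.range L, (b ^ m) ^ i * f i := by
  induction L with
  | zero => simp [cat]
  | succ L ih =>
    rw [cat_succ, Nat.zero_add, List.length_append, Nat.ofDigits_append, ih.1, ih.2,
      (hw _ (hf L)).1, (hw _ (hf L)).2, Finset.sum_range_succ, Finset.sum_range_succ, pow_mul',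
      ]
    refine ⟨by ring, by ring⟩

/-- Equivalent words of one length whose values differ by `g * c ^ j`. -/
theorem poly_words {b : ℕ} (hb : 2 ≤ b) {r : List ℕ → List ℕ → Prop} (hr : Cong r) {E l₀ : ℕ}
    (h : ∀ k : ℕ, ∃ (w : ℕ → List ℕ) (D m : ℕ), 0 < D ∧ 0 < m ∧ (k + l₀) ∣ m ∧
      D * b ^ (k + l₀) + b ^ E = b ^ E * b ^ m + D ∧
      ∀ j ≤ b ^ k, Dig b (w j) ∧ (w j).length = m ∧ r (w 0) (w j) ∧
        Nat.ofDigits b (w j) = Nat.ofDigits b (w 0) + j * D) (d G M : ℕ) :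
    ∃ c L : ℕ, M ≤ c ∧ 0 < L ∧ ∀ j, 1 ≤ j → j ≤ d → ∀ g ≤ G, ∃ u v : List ℕ,
      Dig b u ∧ Dig b v ∧ u.length = L ∧ v.length = L ∧ u.getLast? = some 1 ∧
      v.getLast? = some 1 ∧ r u v ∧ Nat.ofDigits b v = Nat.ofDigits b u + g * c ^ j := by
  set q := b * (2 * (G + 1) * b ^ (E + l₀)) + 1 with hq
  have hq0 : 0 < q := Nat.succ_pos _
  have hqb : Nat.Coprime b (q ^ (d + 1)) := by
    apply Nat.Coprime.pow_right
    rw [hq, Nat.coprime_mul_left_add_right]
    exact Nat.coprime_one_right _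
  have hφ : 0 < Nat.totient (q ^ (d + 1)) := Nat.totient_pos.2 (pow_pos hq0 _)
  obtain ⟨l, hl⟩ : ∃ l, l = Nat.totient (q ^ (d + 1)) * (l₀ + q * M + 1) := ⟨_, rfl⟩
  have hll : l₀ + q * M + 1 ≤ l := by
    rw [hl]
    exact Nat.le_mul_of_pos_left _ hφ
  obtain ⟨k, hk⟩ : ∃ k, k + l₀ = l := ⟨l - l₀, by omega⟩
  have hone : ∀ t, b ^ (l * t) ≡ 1 [MOD q ^ (d + 1)] := by
    intro t
    have h1 := (Nat.ModEq.pow_totient hqb).pow ((l₀ + q * M + 1) * t)
    rw [one_pow, ← pow_mul, ← mul_assoc, ← hl] at h1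
    exact h1
  have hdvd : ∀ t, q ^ (d + 1) ∣ b ^ (l * t) - 1 := fun t =>
    (Nat.modEq_iff_dvd' (Nat.one_le_pow _ _ (by omega))).1 (hone t).symm
  obtain ⟨w, D, m, hD, hm, hlm, hDe, hw⟩ := h k
  rw [hk] at hlm hDe
  obtain ⟨t, ht⟩ := hlm
  have hqm : q ∣ b ^ m - 1 := by
    rw [ht]
    exact dvd_trans (dvd_pow_self q (Nat.succ_ne_zero d)) (hdvd t)
  obtain ⟨z, hz⟩ := hqm
  have hlm' : l ≤ m := by
    rw [ht]
    refine Nat.le_mul_of_pos_right _ (Nat.pos_of_ne_zero ?_)
    rintro rfl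
    omega
  have hMz : M ≤ z := by
    have h1 : l < b ^ l := Nat.lt_pow_self (by omega)
    have h2 : b ^ l ≤ b ^ m := Nat.pow_le_pow_right (by omega) hlm'
    have h3 : q * M ≤ q * z := by omega
    exact Nat.le_of_mul_le_mul_left h3 hq0
  have hbE : 0 < b ^ E := by positivity
  obtain ⟨Y, hY⟩ : ∃ Y, b ^ m = Y + 1 := ⟨b ^ m - 1, by
    have : 0 < b ^ m := by positivity
    omega⟩
  obtain ⟨X, hX⟩ : ∃ X, b ^ l = X + 1 := ⟨b ^ l - 1, by
    have : 0 < b ^ l := by positivity
    omega⟩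
  have hYz : Y = q * z := by omega
  have hDX : D * X = b ^ E * Y := by
    rw [hX, hY] at hDe
    nlinarith
  refine ⟨b ^ E * z, (d + 1) * m + 1, hMz.trans (Nat.le_mul_of_pos_left _ hbE), Nat.succ_pos _,
    fun j hj hjd g hg => ?_⟩
  obtain ⟨i, rfl⟩ : ∃ i, j = i + 1 := ⟨j - 1, by omega⟩
  obtain ⟨v, hv⟩ : q ^ (i + 1) ∣ X := by
    have h1 := hdvd 1
    rw [mul_one, hX, Nat.add_sub_cancel] at h1
    exact dvd_trans (pow_dvd_pow q (by omega)) h1
  have hqj : 0 < q ^ (i + 1) := pow_pos hq0 _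
  set R := g * b ^ (E * i) * v with hR
  have hbound : 2 ^ i * R ≤ b ^ k := by
    have h1 : 2 ^ i * g * b ^ (E * i) * b ^ l₀ ≤ q ^ (i + 1) := by
      have h2 : 2 * (G + 1) * b ^ (E + l₀) ≤ q := by
        have h3 : 2 * (G + 1) * b ^ (E + l₀) ≤ b * (2 * (G + 1) * b ^ (E + l₀)) :=
          Nat.le_mul_of_pos_left _ (by omega)
        omega
      have h3 : (2 * (G + 1) * b ^ (E + l₀)) ^ (i + 1) ≤ q ^ (i + 1) :=
        Nat.pow_le_pow_left h2 _
      refine le_trans ?_ h3
      have h4 : (2 * (G + 1) * b ^ (E + l₀)) ^ (i + 1) =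
          (2 ^ i * (G + 1) * b ^ (E * i) * b ^ l₀) *
            (2 * (G + 1) ^ i * b ^ E * b ^ (l₀ * i)) := by
        rw [mul_pow, mul_pow, ← pow_mul]
        ring
      rw [h4]
      calc 2 ^ i * g * b ^ (E * i) * b ^ l₀ ≤ 2 ^ i * (G + 1) * b ^ (E * i) * b ^ l₀ := by
            have : g ≤ G + 1 := by omega
            gcongr
        _ ≤ _ := Nat.le_mul_of_pos_right _ (by positivity)
    have h5 : q ^ (i + 1) * (2 ^ i * R) ≤ q ^ (i + 1) * b ^ k := by
      calc q ^ (i + 1) * (2 ^ i * R) = 2 ^ i * g * b ^ (E * i) * (q ^ (i + 1) * v) := by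
            rw [hR]; ring
        _ = 2 ^ i * g * b ^ (E * i) * X := by rw [← hv]
        _ ≤ 2 ^ i * g * b ^ (E * i) * (b ^ l₀ * b ^ k) := by
            have : X ≤ b ^ l₀ * b ^ k := by
              rw [← pow_add, Nat.add_comm, hk, hX]
              omega
            gcongr
        _ = 2 ^ i * g * b ^ (E * i) * b ^ l₀ * b ^ k := by ring
        _ ≤ q ^ (i + 1) * b ^ k := Nat.mul_le_mul_right _ h1
    exact Nat.le_of_mul_le_mul_left h5 hqj
  obtain ⟨f, f', hff, -, hsum⟩ := binom_coeffs (b ^ m) R (by rw [hY]; omega) i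
  have hf : ∀ i, f i ≤ b ^ k := fun i => (hff i).1.trans hbound
  have hf' : ∀ i, f' i ≤ b ^ k := fun i => (hff i).2.trans hbound
  have hcs : ∀ {f : ℕ → ℕ}, (∀ i, f i ≤ b ^ k) → _ := fun {f} hf =>
    cat_sum (b := b) (w := w) (M := b ^ k) (D := D) (m := m) (v := Nat.ofDigits b (w 0))
      (fun j hj => ⟨(hw j hj).2.1, (hw j hj).2.2.2⟩) hf (d + 1)
  have hdig : ∀ {f : ℕ → ℕ}, (∀ i, f i ≤ b ^ k) →
      Dig b (cat (fun i => w (f i)) (d + 1) 0 ++ [1]) := by
    intro f hf x hx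
    rcases List.mem_append.1 hx with hx | hx
    · exact cat_dig (fun n => (hw _ (hf n)).1) _ _ x hx
    · rw [List.mem_singleton.1 hx]
      omega
  refine ⟨cat (fun i => w (f i)) (d + 1) 0 ++ [1], cat (fun i => w (f' i)) (d + 1) 0 ++ [1],
    hdig hf, hdig hf', ?_, ?_, List.getLast?_concat, List.getLast?_concat, ?_, ?_⟩
  · rw [List.length_append, (hcs hf).1, List.length_singleton]
  · rw [List.length_append, (hcs hf').1, List.length_singleton]
  · exact hr.app (cat_rel' hr (fun j hj => (hw j hj).2.2.1) hf hf' _ _) (hr.eqv.refl _)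
  · rw [Nat.ofDigits_append, Nat.ofDigits_append, (hcs hf).1, (hcs hf').1, (hcs hf).2,
      (hcs hf').2, hsum (d + 1) (by omega)]
    have hkey : D * ((b ^ m - 1) ^ i * R) = g * (b ^ E * z) ^ (i + 1) := by
      have h6 : q ^ (i + 1) * (D * ((b ^ m - 1) ^ i * R)) =
          q ^ (i + 1) * (g * (b ^ E * z) ^ (i + 1)) := by
        have h7 : b ^ m - 1 = q * z := hz
        rw [h7, hR]
        calc q ^ (i + 1) * (D * ((q * z) ^ i * (g * b ^ (E * i) * v)))
            = g * b ^ (E * i) * (q * z) ^ i * (D * (q ^ (i + 1) * v)) := by ring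
          _ = g * b ^ (E * i) * (q * z) ^ i * (b ^ E * (q * z)) := by rw [← hv, hDX, hYz]
          _ = q ^ (i + 1) * (g * (b ^ E * z) ^ (i + 1)) := by
            rw [mul_pow (b ^ E) z, ← pow_mul, mul_pow q z]
            ring
      exact Nat.eq_of_mul_eq_mul_left hqj h6
    rw [← hkey]
    ring

/-- Words which neither automaton can tell apart and whose values differ by `g * c ^ j`. -/
theorem nil_poly_words {Q G B Q' G' B' : Type} [Group G] [CommMonoid B] [Group G']
    [CommMonoid B'] {b : ℕ} (hb : 2 ≤ b) [Finite Q] [Finite Q'] [Group.IsNilpotent G]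
    [Group.IsNilpotent G'] (δ : Q → ℕ → Q × (G × B)) (δ' : Q' → ℕ → Q' × (G' × B'))
    (d g₀ M : ℕ) :
    ∃ c L : ℕ, M ≤ c ∧ 0 < L ∧ ∀ j, 1 ≤ j → j ≤ d → ∀ g ≤ g₀, ∃ u v : List ℕ,
      Dig b u ∧ Dig b v ∧ u.length = L ∧ v.length = L ∧ u.getLast? = some 1 ∧
      v.getLast? = some 1 ∧ nrel δ δ' u v ∧
      Nat.ofDigits b v = Nat.ofDigits b u + g * c ^ j := by
  obtain ⟨S, c, e, N, H, he, hN, hS, h0r⟩ := nil_chain b δ δ'
  obtain ⟨E, l₀, h⟩ := words_uniform hb H he hN hS
  refine poly_words hb (nrel_cong δ δ') (E := E) (l₀ := l₀) (fun k => ?_) d g₀ M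
  obtain ⟨w, D, m, h1, h2, h3, h4, h5⟩ := h k
  exact ⟨w, D, m, h1, h2, h3, h4, fun j hj => ⟨(h5 j hj).1, (h5 j hj).2.1,
    h0r _ _ (h5 j hj).2.2.1, (h5 j hj).2.2.2⟩⟩

end Vale.Agent.P057.R3.H664
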