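import Vale.Agent.P057.R3.H664.Fin
import Vale.Agent.P057.R3.H664.NilPoly
import Vale.Agent.P057.R3.H706.Idem

set_option autoImplicit false

/-!
P057, digit statistics with outputs in a ring which is finite modulo a nilpotent ideal: equivalent
words in arithmetic progression.
-/

namespace Vale.Agent.P057.R3.H664

open Vale.Agent.P057.H380

/-- Powers of a nilpotent ideal give a central chain on the words with value in `p R p`. -/
theorem ring_chain {R : Type} [Ring R] (I : Ideal R) [I.IsTwoSided] {d : ℕ} (hI : I ^ d = ⊥)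
    (x : ℕ → R) (p : R) :
    Chain (fun i u v => val x u - val x v ∈ I ^ (d - i))
      {w | p * val x w = val x w ∧ val x w * p = val x w ∧ val x w - p ∈ I} d where
  cong i := by
    refine ⟨⟨fun u => by rw [sub_self]; exact Submodule.zero_mem _, fun {u v} h => ?_,
      fun {u v w} h h' => ?_⟩, fun {u u' v v'} h h' => ?_⟩
    · rw [← neg_sub]
      exact Submodule.neg_mem _ h
    · have h1 := Submodule.add_mem _ h h'
      rwa [sub_add_sub_cancel] at h1
    · have e : val x (u ++ v) - val x (u' ++ v') =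
          val x u * (val x v - val x v') + (val x u - val x u') * val x v' := by
        rw [val_append, val_append]
        noncomm_ring
      rw [e]
      exact Submodule.add_mem _ (Ideal.mul_mem_left _ _ h') (Ideal.mul_mem_right _ _ h)
  bot i u v h := by
    rw [Nat.sub_zero, hI, Submodule.mem_bot] at h
    rw [h]
    exact Submodule.zero_mem _
  app u hu v hv := by
    refine ⟨?_, ?_, ?_⟩
    · rw [val_append, ← mul_assoc, hu.1]
    · rw [val_append, mul_assoc, hv.2.1]
    · have e : val x (u ++ v) - p = val x u * (val x v - p) + (val x u * p - p) := by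
        rw [val_append]
        noncomm_ring
      rw [e, hu.2.1]
      exact Submodule.add_mem _ (Ideal.mul_mem_left _ _ hv.2.2) hu.2.2
  top u hu v hv := by
    rw [Nat.sub_self, Submodule.pow_zero, Ideal.one_eq_top]
    exact Submodule.mem_top
  comm i u hu v hv h := by
    rcases Nat.lt_or_ge i d with hi | hi
    · obtain ⟨s, hs⟩ : ∃ s, d - (i + 1) = s := ⟨_, rfl⟩
      have hs' : d - i = s + 1 := by omega
      rw [hs] at h
      rw [hs']
      set z := val x v - val x u with hz
      have hzI : z ∈ I ^ s := by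
        have := Submodule.neg_mem _ h
        rwa [neg_sub] at this
      have hpz : p * z = z := by rw [hz, mul_sub, hu.1, hv.1]
      have hzp : z * p = z := by rw [hz, sub_mul, hu.2.1, hv.2.1]
      have e : val x (u ++ v) - val x (v ++ u) = (val x u - p) * z - z * (val x u - p) := by
        rw [val_append, val_append]
        have e1 : val x v = val x u + z := by rw [hz]; abel
        calc val x u * val x v - val x v * val x u
            = val x u * (val x u + z) - (val x u + z) * val x u := by rw [e1]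
          _ = (val x u - p) * z - z * (val x u - p) + (p * z - z * p) := by noncomm_ring
          _ = (val x u - p) * z - z * (val x u - p) := by rw [hpz, hzp, sub_self, add_zero]
      rw [e]
      refine Submodule.sub_mem _ ?_ ?_
      · rw [Ideal.IsTwoSided.pow_succ]
        exact Ideal.mul_mem_mul hu.2.2 hzI
      · rcases Nat.eq_zero_or_pos s with h0 | h0
        · subst h0
          rw [Nat.zero_add, Submodule.pow_one]
          exact Ideal.mul_mem_left _ _ hu.2.2
        · rw [Submodule.pow_succ]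
          exact Ideal.mul_mem_mul hzI hu.2.2
    · have : d - i = 0 := by omega
      rw [this, Submodule.pow_zero, Ideal.one_eq_top]
      exact Submodule.mem_top

theorem val_pw {R : Type} [Ring R] (x : ℕ → R) (e u : List ℕ) (N : ℕ) :
    val x (pw e N u) = (val x e * val x u * val x e) ^ N := by
  induction N with
  | zero => simp [pw_zero, val]
  | succ N ih => rw [pw_succ, val_append, val_append, val_append, ih, pow_succ']

theorem val_flatten {R : Type} [Ring R] (x : ℕ → R) (w : List ℕ) (n : ℕ) :
    val x (List.replicate n w).flatten = val x w ^ n := by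
  induction n with
  | zero => simp [val]
  | succ n ih => rw [List.replicate_succ, List.flatten_cons, val_append, ih, pow_succ']

/-- The idempotent and the word for `ring_chain`. -/
theorem ring_data {R : Type} [Ring R] (I : Ideal R) [I.IsTwoSided] {d : ℕ} (hI : I ^ (d + 1) = ⊥)
    {b : ℕ} (x : ℕ → R)
    (hfin : ∃ T : Set R, T.Finite ∧ ∀ w : List ℕ, Dig b w → ∃ t ∈ T, val x w - t ∈ I) :
    ∃ (p : R) (E : List ℕ) (N : ℕ), Dig b E ∧ 1 ≤ N ∧ ∀ u : List ℕ, Dig b u → pw E N u ∈
      {w | p * val x w = val x w ∧ val x w * p = val x w ∧ val x w - p ∈ I} := by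
  obtain ⟨e, N, he, hN, hPN⟩ := fin_row I x hfin
  have hnil : Dig b [] := by intro d hd; cases hd
  obtain ⟨p, -, hpa, hpl, hpr⟩ := Vale.Agent.P057.H706.idem_row I (Nat.succ_pos d) hI
    (val x (pw e N [])) (hPN [] hnil).2
  obtain ⟨M, rfl⟩ : ∃ M, N = M + 1 := ⟨N - 1, by omega⟩
  set P : List ℕ := pw e (M + 1) [] with hP
  set E : List ℕ := (List.replicate (d + 1) P).flatten with hE
  have hPd : Dig b P := pw_dig he hnil _
  have hEd : Dig b E := by
    intro z hz
    rw [hE, List.mem_flatten] at hz
    obtain ⟨l, hl, hzl⟩ := hz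
    rw [List.eq_of_mem_replicate hl] at hzl
    exact hPd z hzl
  obtain ⟨y, hy⟩ : ∃ y, E = e ++ y := by
    refine ⟨e ++ (pw e M [] ++ (List.replicate d P).flatten), ?_⟩
    rw [hE, List.replicate_succ, List.flatten_cons, hP, pw_succ]
    simp [List.append_assoc]
  obtain ⟨y', hy'⟩ : ∃ y', E = y' ++ e := by
    refine ⟨(List.replicate d P).flatten ++ (pw e M [] ++ e), ?_⟩
    have h1 : P = pw e M [] ++ (e ++ e) := by
      rw [hP]
      simp only [pw, List.append_nil]
      rw [List.replicate_succ', List.flatten_append]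
      simp
    have h2 : E = (List.replicate d P).flatten ++ P := by
      rw [hE, List.replicate_succ', List.flatten_append]
      simp
    have h3 : P = (pw e M [] ++ e) ++ e := by
      rw [List.append_assoc]
      exact h1
    rw [h2, List.append_assoc]
    exact congrArg (fun z => (List.replicate d P).flatten ++ z) h3
  have hyd : Dig b y := fun z hz => hEd z (by rw [hy]; exact List.mem_append_right _ hz)
  have hyd' : Dig b y' := fun z hz => hEd z (by rw [hy']; exact List.mem_append_left _ hz)
  have hEv : val x E = val x P ^ (d + 1) := val_flatten x P (d + 1)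
  have hpw : ∀ u : List ℕ, pw E (M + 1) u = pw e (M + 1) (y ++ u ++ y') := by
    intro u
    have h1 : E ++ u ++ E = e ++ (y ++ u ++ y') ++ e := by
      calc E ++ u ++ E = (e ++ y) ++ u ++ (y' ++ e) := by rw [← hy, ← hy']
        _ = e ++ (y ++ u ++ y') ++ e := by simp [List.append_assoc]
    unfold pw
    rw [h1]
  refine ⟨p, E, M + 1, hEd, hN, fun u hu => ?_⟩
  have hpl' : p * val x E = val x E := by rw [hEv]; exact hpl
  have hpr' : val x E * p = val x E := by rw [hEv]; exact hpr
  have hT : val x E * val x u * val x E * p = val x E * val x u * val x E := by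
    rw [mul_assoc, hpr']
  have hT' : p * (val x E * val x u * val x E) = val x E * val x u * val x E := by
    rw [← mul_assoc, ← mul_assoc, hpl']
  refine ⟨?_, ?_, ?_⟩
  · rw [val_pw, pow_succ', ← mul_assoc, hT']
  · rw [val_pw, pow_succ, mul_assoc, hT]
  · have h1 := (hPN (y ++ u ++ y') (Vale.Agent.P057.H567.Dig.append
      (Vale.Agent.P057.H567.Dig.append hyd hu) hyd')).1
    rw [hpw]
    have h2 := Submodule.sub_mem _ h1 hpa
    have e1 : val x (pw e (M + 1) (y ++ u ++ y')) - val x (pw e (M + 1) []) - (p - val x P) =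
        val x (pw e (M + 1) (y ++ u ++ y')) - p := by
      rw [hP]
      abel
    rwa [e1] at h2

/-- Words with the same value in `R` are equivalent. -/
theorem val_cong {R : Type} [Ring R] (x : ℕ → R) : Cong (fun u v => val x u = val x v) where
  eqv := ⟨fun _ => rfl, fun h => h.symm, fun h h' => h.trans h'⟩
  app := by
    intro u u' v v' h h'
    rw [val_append, val_append, h, h']

/-- ROW (RING WORDS). -/
theorem ring_words {R : Type} [Ring R] (I : Ideal R) [I.IsTwoSided] {d : ℕ} (hI : I ^ d = ⊥)
    {b : ℕ} (hb : 2 ≤ b) (x : ℕ → R)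
    (hfin : ∃ T : Set R, T.Finite ∧ ∀ w : List ℕ, Dig b w → ∃ t ∈ T, val x w - t ∈ I) (k : ℕ) :
    ∃ (w : ℕ → List ℕ) (D m : ℕ), 0 < D ∧ 0 < m ∧ ∀ j < k, Dig b (w j) ∧ (w j).length = m ∧
      (w j).getLast? = some 1 ∧ val x (w 0) = val x (w j) ∧
      Nat.ofDigits b (w j) = Nat.ofDigits b (w 0) + j * D := by
  have hI' : I ^ (d + 1) = ⊥ := by
    rw [Ideal.IsTwoSided.pow_succ, hI, Ideal.mul_bot]
  obtain ⟨p, E, N, hE, hN, hS⟩ := ring_data I hI' x hfin
  obtain ⟨w, D, m, hD, hm, hw⟩ := words_nil hb (ring_chain I hI' x p) hE hN hS k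
  refine ⟨w, D, m, hD, hm, fun j hj => ⟨(hw j hj).1, (hw j hj).2.1, (hw j hj).2.2.1, ?_,
    (hw j hj).2.2.2.2⟩⟩
  have h1 := (hw j hj).2.2.2.1
  rw [Nat.sub_zero, hI', Submodule.mem_bot, sub_eq_zero] at h1
  exact h1

/-- Words with the same value in `R` whose values as numbers differ by `g * c ^ j`. -/
theorem ring_poly_words {R : Type} [Ring R] (I : Ideal R) [I.IsTwoSided] {d : ℕ}
    (hI : I ^ d = ⊥) {b : ℕ} (hb : 2 ≤ b) (x : ℕ → R)
    (hfin : ∃ T : Set R, T.Finite ∧ ∀ w : List ℕ, Dig b w → ∃ t ∈ T, val x w - t ∈ I)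
    (k g₀ M : ℕ) :
    ∃ c L : ℕ, M ≤ c ∧ 0 < L ∧ ∀ j, 1 ≤ j → j ≤ k → ∀ g ≤ g₀, ∃ u v : List ℕ,
      Dig b u ∧ Dig b v ∧ u.length = L ∧ v.length = L ∧ u.getLast? = some 1 ∧
      v.getLast? = some 1 ∧ val x u = val x v ∧
      Nat.ofDigits b v = Nat.ofDigits b u + g * c ^ j := by
  have hI' : I ^ (d + 1) = ⊥ := by
    rw [Ideal.IsTwoSided.pow_succ, hI, Ideal.mul_bot]
  obtain ⟨p, E, N, hE, hN, hS⟩ := ring_data I hI' x hfin
  obtain ⟨F, l₀, h⟩ := words_uniform hb (ring_chain I hI' x p) hE hN hS
  refine poly_words hb (val_cong x) (E := F) (l₀ := l₀) (fun n => ?_) k g₀ M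
  obtain ⟨w, D, m, h1, h2, h3, h4, h5⟩ := h n
  refine ⟨w, D, m, h1, h2, h3, h4, fun j hj => ⟨(h5 j hj).1, (h5 j hj).2.1, ?_,
    (h5 j hj).2.2.2⟩⟩
  have h6 := (h5 j hj).2.2.1
  rw [Nat.sub_zero, hI', Submodule.mem_bot, sub_eq_zero] at h6
  exact h6

end Vale.Agent.P057.R3.H664
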