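import Vale.Agent.P057.R3.H664.NilCore
import Vale.Agent.P057.R3.H567.Aut

set_option autoImplicit false

/-!
P057, digit statistics with outputs in the product of a nilpotent group and a commutative monoid:
the words which move a number along a progression without changing its digit statistics, for two
automata reading from the two ends.
-/

namespace Vale.Agent.P057.R3.H664

open Nat
open Vale.Agent.P057.H380

/-- The state reached and the product of the outputs produced when a word is read. -/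
def mrun {Q M : Type} [Monoid M] (δ : Q → ℕ → Q × M) : Q → List ℕ → Q × M
  | q, [] => (q, 1)
  | q, d :: w => ((mrun δ (δ q d).1 w).1, (δ q d).2 * (mrun δ (δ q d).1 w).2)

section Aut

variable {Q M : Type} [Monoid M]

/-- The action of a word on the states. -/
def mact (δ : Q → ℕ → Q × M) (w : List ℕ) (q : Q) : Q := (mrun δ q w).1

/-- The output of a word read from a state. -/
def mout (δ : Q → ℕ → Q × M) (w : List ℕ) (q : Q) : M := (mrun δ q w).2

theorem mrun_append (δ : Q → ℕ → Q × M) (w₁ w₂ : List ℕ) (q : Q) :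
    mrun δ q (w₁ ++ w₂) = ((mrun δ (mrun δ q w₁).1 w₂).1,
      (mrun δ q w₁).2 * (mrun δ (mrun δ q w₁).1 w₂).2) := by
  induction w₁ generalizing q with
  | nil => simp [mrun]
  | cons d w ih => simp [mrun, ih, mul_assoc]

theorem mact_append (δ : Q → ℕ → Q × M) (w₁ w₂ : List ℕ) (q : Q) :
    mact δ (w₁ ++ w₂) q = mact δ w₂ (mact δ w₁ q) := by
  simp [mact, mrun_append]

theorem mout_append (δ : Q → ℕ → Q × M) (w₁ w₂ : List ℕ) (q : Q) :
    mout δ (w₁ ++ w₂) q = mout δ w₁ q * mout δ w₂ (mact δ w₁ q) := by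
  simp [mact, mout, mrun_append]

theorem mact_nil (δ : Q → ℕ → Q × M) (q : Q) : mact δ [] q = q := by simp [mact, mrun]

theorem mact_pow (δ : Q → ℕ → Q × M) (w : List ℕ) (n : ℕ) (q : Q) :
    mact δ (List.replicate n w).flatten q = (mact δ w)^[n] q := by
  induction n generalizing q with
  | zero => simp [mact_nil]
  | succ n ih => rw [List.replicate_succ, List.flatten_cons, mact_append, ih,
      Function.iterate_succ_apply]

/-- A word acts by the idempotent map `h` and its output is `o q` times something which depends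
only on `h q`. -/
def Blk (δ : Q → ℕ → Q × M) (h : Q → Q) (o : Q → M) (w : List ℕ) : Prop :=
  ∃ γ : Q → M, ∀ q, mrun δ q w = (h q, o q * γ (h q))

theorem Blk.append {δ : Q → ℕ → Q × M} {h : Q → Q} {o : Q → M} (hh : ∀ q, h (h q) = h q)
    {u v : List ℕ} (hu : Blk δ h o u) (hv : Blk δ h o v) : Blk δ h o (u ++ v) := by
  obtain ⟨f, hf⟩ := hu
  obtain ⟨g, hg⟩ := hv
  refine ⟨fun z => f z * (o z * g z), fun q => ?_⟩
  rw [mrun_append, hf, hg]
  simp only [hh, mul_assoc]

theorem aut_blk [Finite Q] (δ : Q → ℕ → Q × M) (b : ℕ) :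
    ∃ e : List ℕ, Dig b e ∧ ∀ y : List ℕ, Dig b y → ∀ t : ℕ, 0 < t →
      ∃ (h : Q → Q) (o : Q → M), (∀ q, h (h q) = h q) ∧
        ∀ u, Dig b u → Blk δ h o (pw (e ++ y) ((Nat.card Q)! * t) u) := by
  classical
  have hex : ∃ n, ∃ w, Dig b w ∧ (Set.range (mact δ w)).ncard = n :=
    ⟨_, [], by simp [Dig], rfl⟩
  obtain ⟨e, he, hen⟩ := Nat.find_spec hex
  have hmin : ∀ w, Dig b w → (Set.range (mact δ e)).ncard ≤ (Set.range (mact δ w)).ncard := by
    intro w hw
    rw [hen]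
    exact Nat.find_min' hex ⟨w, hw, rfl⟩
  refine ⟨e, he, ?_⟩
  intro y hy t ht
  set E : List ℕ := e ++ y with hE
  have hDE : Dig b E := Vale.Agent.P057.H567.Dig.append he hy
  set R : Set Q := Set.range (mact δ E) with hR
  have hRcard : R.ncard ≤ (Set.range (mact δ e)).ncard := by
    have h1 : R = mact δ y '' Set.range (mact δ e) := by
      ext x
      constructor
      · rintro ⟨z, rfl⟩
        exact ⟨mact δ e z, ⟨z, rfl⟩, by rw [hE, mact_append]⟩
      · rintro ⟨_, ⟨z, rfl⟩, rfl⟩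
        exact ⟨z, by rw [hE, mact_append]⟩
    rw [h1]
    exact Set.ncard_image_le (Set.toFinite _)
  have hon : ∀ w, Dig b w → Set.SurjOn (mact δ (w ++ E)) R R := by
    intro w hw x hx
    have h2 : Set.range (mact δ (E ++ (w ++ E))) = R := by
      refine Set.eq_of_subset_of_ncard_le ?_ ?_ (Set.toFinite _)
      · rintro _ ⟨z, rfl⟩
        rw [mact_append, mact_append]
        exact ⟨_, rfl⟩
      · exact hRcard.trans (hmin _ (Vale.Agent.P057.H567.Dig.append hDE
          (Vale.Agent.P057.H567.Dig.append hw hDE)))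
    rw [← h2] at hx
    obtain ⟨z, rfl⟩ := hx
    exact ⟨mact δ E z, ⟨z, rfl⟩, by rw [← mact_append]⟩
  have hto : ∀ w, ∀ x, mact δ (w ++ E) x ∈ R := by
    intro w x
    rw [mact_append]
    exact ⟨_, rfl⟩
  have hinj : ∀ w, Dig b w → Set.InjOn (mact δ (w ++ E)) R := by
    intro w hw
    let σ : R → R := fun x => ⟨mact δ (w ++ E) x, hto w x⟩
    have hsur : Function.Surjective σ := by
      intro y
      obtain ⟨z, hz, hzy⟩ := hon w hw y.2
      exact ⟨⟨z, hz⟩, Subtype.ext hzy⟩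
    have hi : Function.Injective σ := Finite.injective_iff_surjective.2 hsur
    intro x hx y hy hxy
    have := @hi ⟨x, hx⟩ ⟨y, hy⟩ (Subtype.ext hxy)
    exact congrArg Subtype.val this
  have hnil : Dig b [] := by simp [Dig]
  have hE_R : ∀ x, mact δ E x ∈ R := fun x => ⟨x, rfl⟩
  have hEinj : Set.InjOn (mact δ E) R := by simpa using hinj [] hnil
  have hEsur : Set.SurjOn (mact δ E) R R := by simpa using hon [] hnil
  obtain ⟨N', hN'⟩ : ∃ N', (Nat.card Q)! * t = N' + 1 :=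
    ⟨(Nat.card Q)! * t - 1, (Nat.succ_pred_eq_of_pos
      (Nat.mul_pos (Nat.factorial_pos _) ht)).symm⟩
  have hP : ∀ w, Dig b w → ∀ x, mact δ (pw E ((Nat.card Q)! * t) w) x ∈ R ∧
      mact δ E (mact δ (pw E ((Nat.card Q)! * t) w) x) = mact δ E x := by
    intro w hw x
    have hF : ∀ z, mact δ (E ++ w ++ E) z = mact δ (w ++ E) (mact δ E z) := by
      intro z
      rw [List.append_assoc, mact_append]
    have hfix : ∀ z ∈ R, (mact δ (E ++ w ++ E))^[(Nat.card Q)! * t] z = z := by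
      intro z hz
      apply Vale.Agent.P057.H567.iterate_fix _ R _ _ t z hz
      · intro z _
        rw [hF]
        exact hto _ _
      · intro z hz
        obtain ⟨z₁, hz₁, rfl⟩ := hon w hw hz
        obtain ⟨z₂, hz₂, rfl⟩ := hEsur hz₁
        exact ⟨z₂, hz₂, hF z₂⟩
    rw [pw, mact_pow]
    have hmem : (mact δ (E ++ w ++ E))^[(Nat.card Q)! * t] x ∈ R := by
      rw [hN', Function.iterate_succ_apply', hF]
      exact hto _ _
    refine ⟨hmem, ?_⟩
    apply hinj w hw (hE_R _) (hE_R _)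
    rw [← hF, ← hF, ← Function.iterate_succ_apply' (mact δ (E ++ w ++ E)),
      Function.iterate_succ_apply]
    apply hfix
    rw [hF]
    exact hto _ _
  have hsame : ∀ w w', Dig b w → Dig b w' → ∀ x x', mact δ E x = mact δ E x' →
      mact δ (pw E ((Nat.card Q)! * t) w) x = mact δ (pw E ((Nat.card Q)! * t) w') x' := by
    intro w w' hw hw' x x' hxx
    apply hEinj (hP w hw x).1 (hP w' hw' x').1
    rw [(hP w hw x).2, (hP w' hw' x').2, hxx]
  have hout : ∀ w x, mout δ (pw E ((Nat.card Q)! * t) w) x = mout δ E x *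
      mout δ (w ++ E ++ (List.replicate N' (E ++ w ++ E)).flatten) (mact δ E x) := by
    intro w x
    rw [pw, hN', List.replicate_succ, List.flatten_cons, ← mout_append]
    simp [List.append_assoc]
  refine ⟨mact δ (pw E ((Nat.card Q)! * t) []), mout δ E, ?_, ?_⟩
  · intro q
    exact hsame [] [] hnil hnil _ _ (hP [] hnil q).2
  · intro u hu
    refine ⟨fun z => mout δ (u ++ E ++ (List.replicate N' (E ++ u ++ E)).flatten) (mact δ E z),
      fun q => ?_⟩
    refine Prod.ext ?_ ?_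
    · exact hsame u [] hu hnil q q rfl
    · change mout δ (pw E ((Nat.card Q)! * t) u) q = _
      rw [hout u q]
      simp only [(hP [] hnil q).2]

end Aut

/-- Levels of a monoid: congruences `R 0 = (=)`, ..., `R c = everything`, each central over the
one before. -/
structure Lev {M : Type} [Monoid M] (R : ℕ → M → M → Prop) (c : ℕ) : Prop where
  eqv : ∀ i, Equivalence (R i)
  mul : ∀ i {x x' y y' : M}, R i x x' → R i y y' → R i (x * y) (x' * y')
  bot : ∀ {x y : M}, R 0 x y → x = y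
  top : ∀ i, c ≤ i → ∀ x y : M, R i x y
  comm : ∀ i (x a b t : M), R (i + 1) (x * a) (x * b) →
    R i (x * (a * (t * b))) (x * (b * (t * a)))

/-- The levels of the product of a group and a commutative monoid. -/
def glev (G B : Type) [Group G] (i : ℕ) (x y : G × B) : Prop :=
  x.1⁻¹ * y.1 ∈ Subgroup.upperCentralSeries G i ∧ (i = 0 → x.2 = y.2)

theorem lev_nil (G B : Type) [Group G] [Group.IsNilpotent G] [CommMonoid B] :
    ∃ c, Lev (glev G B) c := by
  refine ⟨Group.nilpotencyClass G + 1, ?_, ?_, ?_, ?_, ?_⟩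
  · intro i
    refine ⟨fun x => ⟨?_, fun _ => rfl⟩, fun {x y} h => ⟨?_, fun hi => (h.2 hi).symm⟩,
      fun {x y z} h h' => ⟨?_, fun hi => (h.2 hi).trans (h'.2 hi)⟩⟩
    · rw [inv_mul_cancel]
      exact Subgroup.one_mem _
    · have := Subgroup.inv_mem _ h.1
      rwa [mul_inv_rev, inv_inv] at this
    · have := Subgroup.mul_mem _ h.1 h'.1
      rwa [mul_assoc, mul_inv_cancel_left] at this
  · intro i x x' y y' h h'
    refine ⟨?_, fun hi => by rw [Prod.snd_mul, Prod.snd_mul, h.2 hi, h'.2 hi]⟩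
    have e : (x * y).1⁻¹ * (x' * y').1 =
        (y.1⁻¹ * (x.1⁻¹ * x'.1) * (y.1⁻¹)⁻¹) * (y.1⁻¹ * y'.1) := by
      rw [Prod.fst_mul, Prod.fst_mul]
      group
    rw [e]
    exact Subgroup.mul_mem _ (Subgroup.Normal.conj_mem inferInstance _ h.1 _) h'.1
  · intro x y h
    have h1 := h.1
    rw [Subgroup.upperCentralSeries_zero, Subgroup.mem_bot, inv_mul_eq_one] at h1
    exact Prod.ext h1 (h.2 rfl)
  · intro i hi x y
    refine ⟨?_, fun h0 => by omega⟩
    have h1 : Subgroup.upperCentralSeries G (Group.nilpotencyClass G) ≤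
        Subgroup.upperCentralSeries G i := Subgroup.upperCentralSeries_mono G (by omega)
    rw [Subgroup.upperCentralSeries_nilpotencyClass] at h1
    exact h1 (Subgroup.mem_top _)
  · intro i x a b t h
    refine ⟨?_, fun _ => ?_⟩
    · have h1 : (a.1⁻¹ * b.1)⁻¹ ∈ Subgroup.upperCentralSeries G (i + 1) := by
        have h2 := h.1
        rw [Prod.fst_mul, Prod.fst_mul] at h2
        have e : (x.1 * a.1)⁻¹ * (x.1 * b.1) = a.1⁻¹ * b.1 := by group
        rw [e] at h2
        exact Subgroup.inv_mem _ h2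
      have h3 := (Subgroup.mem_upperCentralSeries_succ_iff.1 h1) ((t.1 * a.1)⁻¹)
      rw [commutatorElement_def] at h3
      have e : (x * (a * (t * b))).1⁻¹ * (x * (b * (t * a))).1 =
          (a.1⁻¹ * b.1)⁻¹ * (t.1 * a.1)⁻¹ * (a.1⁻¹ * b.1)⁻¹⁻¹ * (t.1 * a.1)⁻¹⁻¹ := by
        simp only [Prod.fst_mul]
        group
      rw [e]
      exact h3
    · simp only [Prod.snd_mul]
      rw [mul_left_comm a.2 t.2 b.2, mul_left_comm b.2 t.2 a.2, mul_comm a.2 b.2]

section Main

variable {Q G B Q' G' B' : Type} [Group G] [CommMonoid B] [Group G'] [CommMonoid B']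

/-- The numbers whose base `b` digit statistics lie in `S`: `δ` reads the digits from the bottom
(starting in the state `q`), `δ'` reads them from the top (starting in the state `q'`). -/
def nilSet (b : ℕ) (δ : Q → ℕ → Q × (G × B)) (δ' : Q' → ℕ → Q' × (G' × B')) (q : Q) (q' : Q')
    (S : Set ((Q × (G × B)) × (Q' × (G' × B')))) : Set ℕ :=
  {n | (mrun δ q (Nat.digits b n), mrun δ' q' (Nat.digits b n).reverse) ∈ S}

/-- Two words are equivalent when both automata cannot tell them apart. -/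
def nrel (δ : Q → ℕ → Q × (G × B)) (δ' : Q' → ℕ → Q' × (G' × B')) (u v : List ℕ) : Prop :=
  (∀ q, mrun δ q u = mrun δ q v) ∧ (∀ q', mrun δ' q' u.reverse = mrun δ' q' v.reverse)

theorem nrel_cong (δ : Q → ℕ → Q × (G × B)) (δ' : Q' → ℕ → Q' × (G' × B')) :
    Cong (nrel δ δ') where
  eqv := ⟨fun _ => ⟨fun _ => rfl, fun _ => rfl⟩,
    fun h => ⟨fun q => (h.1 q).symm, fun q => (h.2 q).symm⟩,
    fun h h' => ⟨fun q => (h.1 q).trans (h'.1 q), fun q => (h.2 q).trans (h'.2 q)⟩⟩
  app := by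
    intro u u' v v' h h'
    refine ⟨fun q => ?_, fun q => ?_⟩
    · rw [mrun_append, mrun_append, h.1 q, h'.1]
    · rw [List.reverse_append, List.reverse_append, mrun_append, mrun_append, h'.2 q, h.2]

theorem nrel_nilSet {b : ℕ} {δ : Q → ℕ → Q × (G × B)} {δ' : Q' → ℕ → Q' × (G' × B')} (q : Q)
    (q' : Q') (S : Set ((Q × (G × B)) × (Q' × (G' × B')))) (m n : ℕ)
    (h : nrel δ δ' (Nat.digits b m) (Nat.digits b n)) :
    (m ∈ nilSet b δ δ' q q' S ↔ n ∈ nilSet b δ δ' q q' S) := by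
  have e : (mrun δ q (Nat.digits b m), mrun δ' q' (Nat.digits b m).reverse) =
      (mrun δ q (Nat.digits b n), mrun δ' q' (Nat.digits b n).reverse) := by
    rw [h.1 q, h.2 q']
  change _ ∈ S ↔ _ ∈ S
  rw [e]

/-- The chain of congruences of two automata. -/
def wlev (δ : Q → ℕ → Q × (G × B)) (δ' : Q' → ℕ → Q' × (G' × B')) (i : ℕ) (u v : List ℕ) : Prop :=
  (∀ q, (mrun δ q u).1 = (mrun δ q v).1 ∧ glev G B i (mrun δ q u).2 (mrun δ q v).2) ∧
  (∀ q, (mrun δ' q u.reverse).1 = (mrun δ' q v.reverse).1 ∧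
    glev G' B' i (mrun δ' q u.reverse).2 (mrun δ' q v.reverse).2)

theorem wlev_zero {δ : Q → ℕ → Q × (G × B)} {δ' : Q' → ℕ → Q' × (G' × B')} {c c' : ℕ}
    (H : Lev (glev G B) c) (H' : Lev (glev G' B') c') {u v : List ℕ} (h : wlev δ δ' 0 u v) :
    nrel δ δ' u v :=
  ⟨fun q => Prod.ext (h.1 q).1 (H.bot (h.1 q).2), fun q => Prod.ext (h.2 q).1 (H'.bot (h.2 q).2)⟩

theorem wlev_chain {δ : Q → ℕ → Q × (G × B)} {δ' : Q' → ℕ → Q' × (G' × B')} {c c' : ℕ}
    (H : Lev (glev G B) c) (H' : Lev (glev G' B') c') {h : Q → Q} {o : Q → G × B}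
    {h' : Q' → Q'} {o' : Q' → G' × B'} (hh : ∀ q, h (h q) = h q) (hh' : ∀ q, h' (h' q) = h' q) :
    Chain (wlev δ δ') {w | Blk δ h o w ∧ Blk δ' h' o' w.reverse} (max c c') where
  cong i := by
    refine ⟨⟨fun _ => ⟨fun _ => ⟨rfl, (H.eqv i).refl _⟩, fun _ => ⟨rfl, (H'.eqv i).refl _⟩⟩,
      fun h => ⟨fun q => ⟨(h.1 q).1.symm, (H.eqv i).symm (h.1 q).2⟩,
        fun q => ⟨(h.2 q).1.symm, (H'.eqv i).symm (h.2 q).2⟩⟩,
      fun h h' => ⟨fun q => ⟨(h.1 q).1.trans (h'.1 q).1, (H.eqv i).trans (h.1 q).2 (h'.1 q).2⟩,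
        fun q => ⟨(h.2 q).1.trans (h'.2 q).1, (H'.eqv i).trans (h.2 q).2 (h'.2 q).2⟩⟩⟩, ?_⟩
    intro u u' v v' h h'
    refine ⟨fun q => ?_, fun q => ?_⟩
    · rw [mrun_append, mrun_append, (h.1 q).1]
      exact ⟨(h'.1 _).1, H.mul i (h.1 q).2 (h'.1 _).2⟩
    · rw [List.reverse_append, List.reverse_append, mrun_append, mrun_append, (h'.2 q).1]
      exact ⟨(h.2 _).1, H'.mul i (h'.2 q).2 (h.2 _).2⟩
  bot i u v h := by
    have h0 := wlev_zero H H' h
    refine ⟨fun q => ?_, fun q => ?_⟩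
    · rw [h0.1 q]
      exact ⟨rfl, (H.eqv i).refl _⟩
    · rw [h0.2 q]
      exact ⟨rfl, (H'.eqv i).refl _⟩
  app u hu v hv := by
    refine ⟨Blk.append hh hu.1 hv.1, ?_⟩
    rw [List.reverse_append]
    exact Blk.append hh' hv.2 hu.2
  top u hu v hv := by
    obtain ⟨⟨f, hf⟩, ⟨f', hf'⟩⟩ := hu
    obtain ⟨⟨g, hg⟩, ⟨g', hg'⟩⟩ := hv
    refine ⟨fun q => ?_, fun q => ?_⟩
    · rw [hf, hg]
      exact ⟨rfl, H.top _ (le_max_left _ _) _ _⟩
    · rw [hf', hg']
      exact ⟨rfl, H'.top _ (le_max_right _ _) _ _⟩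
  comm i u hu v hv huv := by
    obtain ⟨⟨f, hf⟩, ⟨f', hf'⟩⟩ := hu
    obtain ⟨⟨g, hg⟩, ⟨g', hg'⟩⟩ := hv
    refine ⟨fun q => ?_, fun q => ?_⟩
    · have h1 := (huv.1 q).2
      rw [hf, hg] at h1
      rw [mrun_append, mrun_append, hf, hg]
      simp only [hf, hg, hh, mul_assoc]
      exact ⟨trivial, H.comm i _ _ _ _ h1⟩
    · have h1 := (H'.eqv (i + 1)).symm (huv.2 q).2
      rw [hf', hg'] at h1
      rw [List.reverse_append, List.reverse_append, mrun_append, mrun_append, hf', hg']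
      simp only [hf', hg', hh', mul_assoc]
      exact ⟨trivial, H'.comm i _ _ _ _ h1⟩

theorem flatten_replicate_reverse (N : ℕ) (w : List ℕ) :
    ((List.replicate N w).flatten).reverse = (List.replicate N w.reverse).flatten := by
  rw [List.reverse_flatten, List.map_replicate, List.reverse_replicate]

theorem pw_reverse (e : List ℕ) (N : ℕ) (u : List ℕ) :
    (pw e N u).reverse = pw e.reverse N u.reverse := by
  unfold pw
  rw [flatten_replicate_reverse]
  simp [List.reverse_append, List.append_assoc]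

theorem dig_reverse {b : ℕ} {u : List ℕ} (hu : Dig b u) : Dig b u.reverse :=
  fun d hd => hu d (List.mem_reverse.1 hd)

/-- The chain of two automata, with one word `e` and one exponent `N` for both. -/
theorem nil_chain (b : ℕ) [Finite Q] [Finite Q'] [Group.IsNilpotent G]
    [Group.IsNilpotent G'] (δ : Q → ℕ → Q × (G × B)) (δ' : Q' → ℕ → Q' × (G' × B')) :
    ∃ (S : Set (List ℕ)) (c : ℕ) (e : List ℕ) (N : ℕ), Chain (wlev δ δ') S c ∧ Dig b e ∧ 1 ≤ N ∧
      (∀ u : List ℕ, Dig b u → pw e N u ∈ S) ∧ ∀ u v, wlev δ δ' 0 u v → nrel δ δ' u v := by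
  obtain ⟨c, H⟩ := lev_nil G B
  obtain ⟨c', H'⟩ := lev_nil G' B'
  obtain ⟨e1, he1, h1⟩ := aut_blk δ b
  obtain ⟨e2, he2, h2⟩ := aut_blk δ' b
  have hQ : 0 < (Nat.card Q)! := Nat.factorial_pos _
  have hQ' : 0 < (Nat.card Q')! := Nat.factorial_pos _
  obtain ⟨h, o, hh, hP⟩ := h1 e2.reverse (dig_reverse he2) _ hQ'
  obtain ⟨h', o', hh', hP'⟩ := h2 e1.reverse (dig_reverse he1) _ hQ
  refine ⟨{w | Blk δ h o w ∧ Blk δ' h' o' w.reverse}, max c c', e1 ++ e2.reverse,
    (Nat.card Q)! * (Nat.card Q')!, wlev_chain H H' hh hh',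
    Vale.Agent.P057.H567.Dig.append he1 (dig_reverse he2), Nat.mul_pos hQ hQ', ?_,
    fun u v huv => wlev_zero H H' huv⟩
  intro u hu
  refine ⟨hP u hu, ?_⟩
  have h3 := hP' u.reverse (dig_reverse hu)
  rw [pw_reverse, List.reverse_append, List.reverse_reverse,
    mul_comm ((Nat.card Q)!) ((Nat.card Q')!)]
  exact h3

/-- Words in arithmetic progression which neither automaton can tell apart. -/
theorem nil_words {b : ℕ} (hb : 2 ≤ b) [Finite Q] [Finite Q'] [Group.IsNilpotent G]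
    [Group.IsNilpotent G'] (δ : Q → ℕ → Q × (G × B)) (δ' : Q' → ℕ → Q' × (G' × B'))
    {k : ℕ} (hk : 1 ≤ k) :
    ∃ (w : ℕ → List ℕ) (D m : ℕ), 0 < D ∧ 0 < m ∧ 0 < Nat.ofDigits b (w 0) ∧
      ∀ j < k, Dig b (w j) ∧ (w j).length = m ∧ (w j).getLast? = some 1 ∧
        nrel δ δ' (w 0) (w j) ∧
        Nat.ofDigits b (w j) = Nat.ofDigits b (w 0) + j * D := by
  obtain ⟨S, c, e, N, H, he, hN, hS, h0r⟩ := nil_chain b δ δ'
  obtain ⟨w, D, m, hD, hm, hw⟩ := words_nil hb H he hN hS k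
  have h0 := hw 0 (by omega)
  have hw0 : w 0 ≠ [] := by
    intro h
    have h4 := h0.2.1
    rw [h] at h4
    simp at h4
    omega
  have hv0 : 0 < Nat.ofDigits b (w 0) := by
    rw [Nat.pos_iff_ne_zero]
    intro h
    have h4 := Nat.digits_ofDigits b (by omega) (w 0) h0.1 (fun hne => by
      have h5 := h0.2.2.1
      rw [List.getLast?_eq_getLast_of_ne_nil hne] at h5
      rw [Option.some.inj h5]
      exact one_ne_zero)
    rw [h, Nat.digits_zero] at h4
    exact hw0 h4.symm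
  exact ⟨w, D, m, hD, hm, hv0, fun j hj => ⟨(hw j hj).1, (hw j hj).2.1, (hw j hj).2.2.1,
    h0r _ _ (hw j hj).2.2.2.1, (hw j hj).2.2.2.2⟩⟩

end Main

end Vale.Agent.P057.R3.H664
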