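import Vale.Agent.P057.R3.H380.RingDefs
import Vale.Agent.P057.R3.H664.NilAut

set_option autoImplicit false

/-!
P057, digit statistics with outputs in a ring, row FIN: modulo the ideal the powers `(e u e)^N`
have one idempotent value.
-/

namespace Vale.Agent.P057.R3.H664

open Nat
open Vale.Agent.P057.H380

/-- ROW (FIN). -/
theorem fin_row {R : Type} [Ring R] (I : Ideal R) [I.IsTwoSided] {b : ℕ} (x : ℕ → R)
    (hfin : ∃ T : Set R, T.Finite ∧ ∀ w : List ℕ, Dig b w → ∃ t ∈ T, val x w - t ∈ I) :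
    ∃ (e : List ℕ) (N : ℕ), Dig b e ∧ 1 ≤ N ∧ ∀ u : List ℕ, Dig b u →
      val x (pw e N u) - val x (pw e N []) ∈ I ∧
      val x (pw e N u) * val x (pw e N u) - val x (pw e N u) ∈ I := by
  classical
  obtain ⟨T, hT, hTw⟩ := hfin
  have hnil : Dig b [] := by intro d hd; cases hd
  let π : R →+* R ⧸ I := Ideal.Quotient.mk I
  let Q : Type := {c : R ⧸ I // ∃ w, Dig b w ∧ π (val x w) = c}
  have hfQ : Finite Q := by
    have hs : {c : R ⧸ I | ∃ w, Dig b w ∧ π (val x w) = c} ⊆ π '' T := by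
      rintro c ⟨w, hw, rfl⟩
      obtain ⟨t, ht, h⟩ := hTw w hw
      exact ⟨t, ht, ((Ideal.Quotient.mk_eq_mk_iff_sub_mem _ _).2 h).symm⟩
    exact ((hT.image π).subset hs).to_subtype
  let δ : Q → ℕ → Q × Unit := fun q d =>
    if h : d < b then (⟨q.1 * π (x d), by
      obtain ⟨w, hw, e⟩ := q.2
      refine ⟨w ++ [d], Vale.Agent.P057.H567.Dig.append hw (fun z hz => ?_), ?_⟩
      · rw [List.mem_singleton.1 hz]
        exact h
      · rw [← e, ← map_mul]
        simp [val]⟩, ()) else (q, ())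
  have hact : ∀ w, Dig b w → ∀ q : Q, ((mrun δ q w).1).1 = q.1 * π (val x w) := by
    intro w
    induction w with
    | nil => intro _ q; simp [mrun, val]
    | cons d w ih =>
      intro hw q
      have hd : d < b := hw d (by simp)
      have hw' : Dig b w := fun z hz => hw z (by simp [hz])
      have h1 : (mrun δ q (d :: w)).1 = (mrun δ (δ q d).1 w).1 := rfl
      have h2 : ((δ q d).1).1 = q.1 * π (x d) := by
        simp only [δ, dif_pos hd]
      rw [h1, ih hw', h2, mul_assoc, ← map_mul]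
      simp [val]
  obtain ⟨e, he, h1⟩ := aut_blk δ b
  obtain ⟨h, o, hh, hP⟩ := h1 [] hnil 1 one_pos
  let q₀ : Q := ⟨1, [], hnil, by simp [val]⟩
  have hPd : ∀ u, Dig b u → Dig b (pw (e ++ []) ((Nat.card Q)! * 1) u) := fun u hu =>
    pw_dig (by rwa [List.append_nil]) hu _
  have hv : ∀ u, Dig b u → π (val x (pw (e ++ []) ((Nat.card Q)! * 1) u)) = (h q₀).1 := by
    intro u hu
    obtain ⟨γ, hγ⟩ := hP u hu
    have h2 := hact _ (hPd u hu) q₀
    rw [hγ] at h2
    rw [h2]
    exact (one_mul _).symm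
  have hsq : (h q₀).1 * (h q₀).1 = (h q₀).1 := by
    obtain ⟨γ, hγ⟩ := hP [] hnil
    have h2 := hact _ (hPd [] hnil) (h q₀)
    rw [hγ, hv [] hnil] at h2
    simp only [hh] at h2
    exact h2.symm
  refine ⟨e ++ [], (Nat.card Q)! * 1, by rwa [List.append_nil], by
    rw [mul_one]; exact Nat.factorial_pos _, fun u hu => ⟨?_, ?_⟩⟩
  · rw [← Ideal.Quotient.mk_eq_mk_iff_sub_mem]
    exact (hv u hu).trans (hv [] hnil).symm
  · rw [← Ideal.Quotient.mk_eq_mk_iff_sub_mem, map_mul]
    change π _ * π _ = π _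
    rw [hv u hu, hsq]

end Vale.Agent.P057.R3.H664
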