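import Vale.Agent.P057.R3.H475.Basic

set_option autoImplicit false

/-!
P057, digit statistics with advice, rows CLOSE and SAME.
-/

namespace Vale.Agent.P057.R3.H664

open Vale.Agent.P057.H475

theorem len_eq {b n L : ℕ} (hb : 2 ≤ b) (h1 : b ^ L ≤ n) (h2 : n < b ^ (L + 1)) :
    (Nat.digits b n).length = L + 1 := by
  have hn : n ≠ 0 := by
    have : 0 < b ^ L := by positivity
    omega
  rw [Nat.digits_len b n (by omega) hn]
  congr 1
  exact (Nat.log_eq_iff (Or.inr ⟨by omega, hn⟩)).2 ⟨h1, h2⟩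

theorem len_add {b s d y : ℕ} (hb : 2 ≤ b) (hd : d < b ^ s) (hy : 0 < y) :
    (Nat.digits b (d + b ^ s * y)).length = s + (Nat.digits b y).length := by
  have hy0 : y ≠ 0 := by omega
  rw [Nat.digits_len b y (by omega) hy0, ← Nat.add_assoc]
  have h1 : b ^ Nat.log b y ≤ y := Nat.pow_log_le_self b hy0
  have h2 : y < b ^ (Nat.log b y + 1) := Nat.lt_pow_succ_log_self (by omega) y
  apply len_eq hb
  · calc b ^ (s + Nat.log b y) = b ^ s * b ^ Nat.log b y := pow_add _ _ _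
      _ ≤ b ^ s * y := Nat.mul_le_mul_left _ h1
      _ ≤ _ := Nat.le_add_left _ _
  · calc d + b ^ s * y < b ^ s + b ^ s * y := Nat.add_lt_add_right hd _
      _ = b ^ s * (y + 1) := by ring
      _ ≤ b ^ s * b ^ (Nat.log b y + 1) := Nat.mul_le_mul_left _ h2
      _ = b ^ (s + Nat.log b y + 1) := by rw [← pow_add, Nat.add_assoc]

/-- ROW CLOSE. -/
theorem adv_close {Q B : Type} [AddCommMonoid B] {b : ℕ} (hb : 2 ≤ b)
    (δ : ℕ → Q → ℕ → Q × B) (q : Q) (S : Set (Q × B)) (s d : ℕ) (hd : d < b ^ s) :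
    ∃ (q' : Q) (S' : Set (Q × B)), ∀ y : ℕ, 0 < y →
      (d + b ^ s * y ∈ advSet b δ q S ↔ y ∈ advSet b (fun i => δ (s + i)) q' S') := by
  refine ⟨(arun b δ s q d).1, {p | (p.1, (arun b δ s q d).2 + p.2) ∈ S}, fun y hy => ?_⟩
  change arun b δ (Nat.digits b (d + b ^ s * y)).length q (d + b ^ s * y) ∈ S ↔ _
  rw [len_add hb hd hy, arun_add hb _ s δ q d y hd]
  exact Iff.rfl

/-- ROW SAME. -/
theorem adv_same {Q B : Type} [AddCommMonoid B] {b : ℕ} (hb : 2 ≤ b)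
    (δ : ℕ → Q → ℕ → Q × B) (q : Q) (S : Set (Q × B)) (m v w : ℕ)
    (hv : b ^ m ≤ v ∧ v < b ^ (m + 1)) (hw : b ^ m ≤ w ∧ w < b ^ (m + 1))
    (h : arun b δ (m + 1) q w = arun b δ (m + 1) q v) (y : ℕ) :
    w + b ^ (m + 1) * y ∈ advSet b δ q S ↔ v + b ^ (m + 1) * y ∈ advSet b δ q S := by
  change arun b δ _ q _ ∈ S ↔ arun b δ _ q _ ∈ S
  rcases Nat.eq_zero_or_pos y with hy | hy
  · subst hy
    rw [Nat.mul_zero, Nat.add_zero, Nat.add_zero, len_eq hb hv.1 hv.2, len_eq hb hw.1 hw.2, h]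
  · rw [len_add hb hv.2 hy, len_add hb hw.2 hy, arun_add hb _ _ _ _ _ _ hv.2,
      arun_add hb _ _ _ _ _ _ hw.2, h]

end Vale.Agent.P057.R3.H664
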