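import Vale.Agent.P057.R3.H664.Shift

set_option autoImplicit false

/-!
P057, digit statistics, row CORE: equivalent words of equal length whose values are in arithmetic
progression, from a congruence for which the words `(e u e)^N` commute.
-/

namespace Vale.Agent.P057.R3.H664

open Vale.Agent.P057.H380

/-- The word of the `L` lowest digits. -/
def pad (b : ℕ) : ℕ → ℕ → List ℕ
  | 0, _ => []
  | L + 1, n => (n % b) :: pad b L (n / b)

theorem pad_length (b L : ℕ) : ∀ n, (pad b L n).length = L := by
  induction L with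
  | zero => intro n; rfl
  | succ L ih => intro n; simp only [pad, List.length_cons, ih]

theorem pad_dig {b : ℕ} (hb : 2 ≤ b) (L : ℕ) : ∀ n, Dig b (pad b L n) := by
  induction L with
  | zero => intro n d hd; cases hd
  | succ L ih =>
    intro n d hd
    rcases List.mem_cons.1 hd with h | h
    · rw [h]
      exact Nat.mod_lt _ (by omega)
    · exact ih _ d h

theorem pad_val {b : ℕ} (hb : 2 ≤ b) (L : ℕ) : ∀ n, n < b ^ L → Nat.ofDigits b (pad b L n) = n := by
  induction L with
  | zero =>
    intro n hn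
    simp only [pow_zero, Nat.lt_one_iff] at hn
    rw [hn]
    rfl
  | succ L ih =>
    intro n hn
    have h1 : n / b < b ^ L := by
      rw [Nat.div_lt_iff_lt_mul (by omega)]
      rwa [pow_succ] at hn
    simp only [pad]
    rw [Nat.ofDigits_cons, ih _ h1]
    exact Nat.mod_add_div n b

theorem eq_pad {b : ℕ} (hb : 2 ≤ b) {L : ℕ} {x : List ℕ} (hx : Dig b x) (hl : x.length = L) :
    pad b L (Nat.ofDigits b x) = x := by
  have h1 : Nat.ofDigits b x < b ^ L := by
    rw [← hl]
    exact Nat.ofDigits_lt_base_pow_length (by omega) hx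
  exact Nat.ofDigits_inj_of_len_eq (by omega) (by rw [pad_length, hl]) (pad_dig hb L _) hx
    (pad_val hb L _ h1)

theorem pw_zero (e u : List ℕ) : pw e 0 u = [] := rfl

theorem pw_succ (e u : List ℕ) (N : ℕ) : pw e (N + 1) u = (e ++ u ++ e) ++ pw e N u := by
  simp only [pw, List.replicate_succ, List.flatten_cons]

theorem pw_dig {b : ℕ} {e u : List ℕ} (he : Dig b e) (hu : Dig b u) (N : ℕ) :
    Dig b (pw e N u) := by
  induction N with
  | zero => intro d hd; cases hd
  | succ N ih =>
    rw [pw_succ]
    intro d hd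
    rcases List.mem_append.1 hd with h | h
    · rcases List.mem_append.1 h with h | h
      · rcases List.mem_append.1 h with h | h
        · exact he d h
        · exact hu d h
      · exact he d h
    · exact ih d h

theorem pw_length (e u : List ℕ) (N : ℕ) :
    (pw e N u).length = N * (2 * e.length + u.length) := by
  induction N with
  | zero => simp only [pw_zero, List.length_nil, zero_mul]
  | succ N ih =>
    rw [pw_succ, List.length_append, ih, List.length_append, List.length_append]
    ring

theorem pw_congr {r : List ℕ → List ℕ → Prop} (hr : Cong r) (e : List ℕ) {u v : List ℕ}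
    (h : r u v) (N : ℕ) : r (pw e N u) (pw e N v) := by
  induction N with
  | zero => exact hr.eqv.refl _
  | succ N ih =>
    rw [pw_succ, pw_succ]
    exact hr.app (hr.app (hr.app (hr.eqv.refl _) h) (hr.eqv.refl _)) ih

theorem pw_val (b : ℕ) (hb : 2 ≤ b) (e : List ℕ) (l N : ℕ) :
    ∃ c K : ℕ, (1 ≤ N → 0 < K) ∧ ∀ u : List ℕ, u.length = l →
      Nat.ofDigits b (pw e N u) = c + K * Nat.ofDigits b u := by
  induction N with
  | zero =>
    refine ⟨0, 0, fun h => absurd h (by omega), fun u _ => ?_⟩
    rw [pw_zero, Nat.ofDigits_nil]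
    ring
  | succ N ih =>
    obtain ⟨c, K, -, h⟩ := ih
    refine ⟨Nat.ofDigits b e + b ^ (e.length + l) * Nat.ofDigits b e +
      b ^ (e.length + l + e.length) * c,
      b ^ e.length + b ^ (e.length + l + e.length) * K, fun _ => by positivity, fun u hu => ?_⟩
    rw [pw_succ, Nat.ofDigits_append, Nat.ofDigits_append, Nat.ofDigits_append, h u hu]
    simp only [List.length_append, hu]
    ring

/-- Concatenation of `F n, F (n + 1), …, F (n + L - 1)`. -/
def cat (F : ℕ → List ℕ) : ℕ → ℕ → List ℕ
  | 0, _ => []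
  | L + 1, n => F n ++ cat F L (n + 1)

theorem cat_succ (F : ℕ → List ℕ) (L : ℕ) : ∀ n, cat F (L + 1) n = cat F L n ++ F (n + L) := by
  induction L with
  | zero =>
    intro n
    simp only [cat, List.append_nil, List.nil_append, Nat.add_zero]
  | succ L ih =>
    intro n
    have h1 : cat F (L + 1 + 1) n = F n ++ cat F (L + 1) (n + 1) := rfl
    have h2 : cat F (L + 1) n = F n ++ cat F L (n + 1) := rfl
    rw [h1, ih (n + 1), h2, List.append_assoc]
    have h3 : n + 1 + L = n + (L + 1) := by ring
    rw [h3]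

theorem cat_dig {b : ℕ} {F : ℕ → List ℕ} (hF : ∀ n, Dig b (F n)) (L : ℕ) :
    ∀ n, Dig b (cat F L n) := by
  induction L with
  | zero => intro n d hd; cases hd
  | succ L ih =>
    intro n d hd
    rcases List.mem_append.1 hd with h | h
    · exact hF n d h
    · exact ih (n + 1) d h

theorem cat_length {F : ℕ → List ℕ} {l : ℕ} (hF : ∀ n, (F n).length = l) (L : ℕ) :
    ∀ n, (cat F L n).length = L * l := by
  induction L with
  | zero => intro n; simp only [cat, List.length_nil, zero_mul]
  | succ L ih =>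
    intro n
    simp only [cat, List.length_append, hF, ih]
    ring

theorem cat_comm {r : List ℕ → List ℕ → Prop} (hr : Cong r) {F : ℕ → List ℕ}
    (hF : ∀ x y, r (F x ++ F y) (F y ++ F x)) (x L : ℕ) :
    ∀ n, r (F x ++ cat F L n) (cat F L n ++ F x) := by
  induction L with
  | zero =>
    intro n
    simp only [cat, List.append_nil, List.nil_append]
    exact hr.eqv.refl _
  | succ L ih =>
    intro n
    have h1 : cat F (L + 1) n = F n ++ cat F L (n + 1) := rfl
    rw [h1, ← List.append_assoc, List.append_assoc (F n)]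
    refine hr.eqv.trans (hr.app (hF x n) (hr.eqv.refl _)) ?_
    rw [List.append_assoc]
    exact hr.app (hr.eqv.refl _) (ih (n + 1))

theorem cat_step {r : List ℕ → List ℕ → Prop} (hr : Cong r) {F : ℕ → List ℕ}
    (hF : ∀ x y, r (F x ++ F y) (F y ++ F x)) {L n : ℕ} (h : r (F n) (F (n + (L + 1)))) :
    r (cat F (L + 1) n) (cat F (L + 1) (n + 1)) := by
  rw [cat_succ F L (n + 1)]
  have h1 : cat F (L + 1) n = F n ++ cat F L (n + 1) := rfl
  have h2 : n + 1 + L = n + (L + 1) := by ring
  rw [h1, h2]
  exact hr.eqv.trans (cat_comm hr hF n L (n + 1)) (hr.app (hr.eqv.refl _) h)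

theorem cat_val {b : ℕ} {F : ℕ → List ℕ} {l c K B : ℕ} (hK : 0 < K)
    (hl : ∀ n, (F n).length = l) (hv : ∀ n < B, Nat.ofDigits b (F n) = c + K * n) (L : ℕ) :
    ∃ S : ℕ, (0 < L → 0 < S) ∧ ∀ n j, n + j + L ≤ B →
      Nat.ofDigits b (cat F L (n + j)) = Nat.ofDigits b (cat F L n) + j * S := by
  induction L with
  | zero =>
    refine ⟨0, fun h => absurd h (lt_irrefl 0), fun n j _ => ?_⟩
    simp only [cat, mul_zero, Nat.add_zero]
  | succ L ih =>
    obtain ⟨S, -, h⟩ := ih
    refine ⟨K + b ^ l * S, fun _ => by positivity, fun n j hB => ?_⟩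
    have h1 : cat F (L + 1) (n + j) = F (n + j) ++ cat F L (n + j + 1) := rfl
    have h2 : cat F (L + 1) n = F n ++ cat F L (n + 1) := rfl
    have h3 : n + j + 1 = n + 1 + j := by ring
    rw [h1, h2, h3, Nat.ofDigits_append, Nat.ofDigits_append, hl, hl, h (n + 1) j (by omega),
      hv _ (by omega), hv _ (by omega)]
    ring

/-- ROW (CORE). -/
theorem words {b : ℕ} (hb : 2 ≤ b) {r : List ℕ → List ℕ → Prop} (hr : Cong r) {e : List ℕ}
    (he : Dig b e) {N : ℕ} (hN : 1 ≤ N)
    (hc : ∀ u v : List ℕ, Dig b u → Dig b v →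
      r (pw e N u ++ pw e N v) (pw e N v ++ pw e N u)) (k : ℕ) :
    ∃ (w : ℕ → List ℕ) (D m : ℕ), 0 < D ∧ 0 < m ∧ ∀ j < k, Dig b (w j) ∧ (w j).length = m ∧
      (w j).getLast? = some 1 ∧ r (w 0) (w j) ∧
      Nat.ofDigits b (w j) = Nat.ofDigits b (w 0) + j * D := by
  have hd0 : Dig b [0] := by
    intro d hd
    rw [List.mem_singleton.1 hd]
    omega
  have hd1 : Dig b [1] := by
    intro d hd
    rw [List.mem_singleton.1 hd]
    omega
  have happ : ∀ {x y : List ℕ}, Dig b x → Dig b y → Dig b (x ++ y) := by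
    intro x y hx hy d hd
    rcases List.mem_append.1 hd with h | h
    · exact hx d h
    · exact hy d h
  -- two equivalent words of the same length and different values
  obtain ⟨g, g', hg, hg', hlen, hlt, hgr⟩ : ∃ g g' : List ℕ, Dig b g ∧ Dig b g' ∧
      g.length = g'.length ∧ Nat.ofDigits b g < Nat.ofDigits b g' ∧ r g g' := by
    obtain ⟨c, K, hK, hv⟩ := pw_val b hb e 1 N
    have e0 := hv [0] rfl
    have e1 := hv [1] rfl
    have l0 := pw_length e [0] N
    have l1 := pw_length e [1] N
    have hl : 0 < N * (2 * e.length + [1].length) := by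
      simp only [List.length_singleton]
      positivity
    have hB : 2 ≤ b ^ (N * (2 * e.length + 1)) := by
      simp only [List.length_singleton] at hl
      calc 2 ≤ b := hb
        _ = b ^ 1 := (pow_one b).symm
        _ ≤ b ^ (N * (2 * e.length + 1)) := Nat.pow_le_pow_right (by omega) hl
    refine ⟨pw e N [1] ++ pw e N [0], pw e N [0] ++ pw e N [1],
      happ (pw_dig he hd1 N) (pw_dig he hd0 N), happ (pw_dig he hd0 N) (pw_dig he hd1 N), ?_, ?_,
      hc [1] [0] hd1 hd0⟩
    · rw [List.length_append, List.length_append, Nat.add_comm]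
    · rw [Nat.ofDigits_append, Nat.ofDigits_append, e0, e1, l0, l1]
      simp only [List.length_singleton, Nat.ofDigits_singleton, mul_zero, mul_one, Nat.add_zero]
      have h0 := hK hN
      nlinarith
  set H := Nat.ofDigits b g with hH
  set H' := Nat.ofDigits b g' with hH'
  set m₁ := g.length with hm1
  have hH'lt : H' < b ^ m₁ := by
    rw [hlen]
    exact Nat.ofDigits_lt_base_pow_length (by omega) hg'
  have hkb : k < b ^ k := Nat.lt_pow_self (by omega)
  have hbk : 0 < b ^ k := by positivity
  obtain ⟨L, hL⟩ : ∃ L, (H' - H) * b ^ k = L + 1 := by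
    have : 0 < (H' - H) * b ^ k := Nat.mul_pos (by omega) hbk
    exact ⟨(H' - H) * b ^ k - 1, by omega⟩
  have hLe : H * b ^ k + (L + 1) = H' * b ^ k := by
    rw [← hL, ← Nat.add_mul]
    congr 1
    omega
  -- the blocks
  have hwd : ∀ (x : List ℕ) (j : ℕ), Dig b x → x.length = m₁ → j < b ^ k →
      pad b (k + m₁) (Nat.ofDigits b x * b ^ k + j) = pad b k j ++ x := by
    intro x j hx hxl hj
    have h1 := eq_pad hb (L := k + m₁) (happ (pad_dig hb k j) hx)
      (by rw [List.length_append, pad_length, hxl])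
    rw [Nat.ofDigits_append, pad_length, pad_val hb k j hj] at h1
    rw [← h1]
    congr 1
    ring
  obtain ⟨c, K, hK, hv⟩ := pw_val b hb e (k + m₁) N
  set F : ℕ → List ℕ := fun n => pw e N (pad b (k + m₁) n) with hF
  have hFd : ∀ n, Dig b (F n) := fun n => pw_dig he (pad_dig hb _ n) N
  have hFl : ∀ n, (F n).length = N * (2 * e.length + (k + m₁)) := by
    intro n
    simp only [hF]
    rw [pw_length, pad_length]
  have hFv : ∀ n < b ^ (k + m₁), Nat.ofDigits b (F n) = c + K * n := by
    intro n hn
    simp only [hF]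
    rw [hv _ (pad_length b _ n), pad_val hb _ n hn]
  have hFc : ∀ x y, r (F x ++ F y) (F y ++ F x) := fun x y =>
    hc _ _ (pad_dig hb _ x) (pad_dig hb _ y)
  have hFr : ∀ j < b ^ k, r (F (H * b ^ k + j)) (F (H * b ^ k + j + (L + 1))) := by
    intro j hj
    have h1 : H * b ^ k + j + (L + 1) = H' * b ^ k + j := by omega
    rw [h1]
    simp only [hF]
    rw [hwd g j hg rfl hj, hwd g' j hg' hlen.symm hj]
    exact pw_congr hr e (hr.app (hr.eqv.refl _) hgr) N
  obtain ⟨S, hS, hval⟩ := cat_val (hK hN) hFl hFv (L + 1)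
  have hrel : ∀ j, j ≤ b ^ k →
      r (cat F (L + 1) (H * b ^ k)) (cat F (L + 1) (H * b ^ k + j)) := by
    intro j
    induction j with
    | zero => intro _; exact hr.eqv.refl _
    | succ j ih =>
      intro hj
      exact hr.eqv.trans (ih (by omega)) (cat_step hr hFc (hFr j (by omega)))
  refine ⟨fun j => cat F (L + 1) (H * b ^ k + j) ++ [1], S,
    (L + 1) * (N * (2 * e.length + (k + m₁))) + 1, hS (by omega), by omega, fun j hj => ?_⟩
  have hbd : H * b ^ k + j + (L + 1) ≤ b ^ (k + m₁) := by
    have h1 : (H' + 1) * b ^ k ≤ b ^ m₁ * b ^ k := Nat.mul_le_mul_right _ (by omega)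
    have h2 : b ^ (k + m₁) = b ^ m₁ * b ^ k := by rw [pow_add]; ring
    have h3 : (H' + 1) * b ^ k = H' * b ^ k + b ^ k := by ring
    omega
  refine ⟨happ (cat_dig hFd _ _) hd1, ?_, ?_, ?_, ?_⟩
  · rw [List.length_append, cat_length hFl, List.length_singleton]
  · exact List.getLast?_concat
  · simp only [Nat.add_zero]
    exact hr.app (hrel j (by omega)) (hr.eqv.refl _)
  · simp only [Nat.add_zero]
    rw [Nat.ofDigits_append, Nat.ofDigits_append, cat_length hFl, cat_length hFl,
      hval (H * b ^ k) j hbd]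
    ring

end Vale.Agent.P057.R3.H664
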