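import Vale.Agent.P057.R3.H664.Core

set_option autoImplicit false

/-!
P057, digit statistics with nilpotent outputs: equivalent words of equal length whose values are in
arithmetic progression, from a chain of congruences each of which is central over the next one.
-/

namespace Vale.Agent.P057.R3.H664

open Vale.Agent.P057.H380

/-- A chain of congruences on words, together with a set `S` of words closed under concatenation:
all words of `S` are equivalent at level `c`, and two words of `S` which are equivalent at level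
`i + 1` commute at level `i`. -/
structure Chain (C : ℕ → List ℕ → List ℕ → Prop) (S : Set (List ℕ)) (c : ℕ) : Prop where
  cong : ∀ i, Cong (C i)
  bot : ∀ i u v, C 0 u v → C i u v
  app : ∀ u ∈ S, ∀ v ∈ S, u ++ v ∈ S
  top : ∀ u ∈ S, ∀ v ∈ S, C c u v
  comm : ∀ i, ∀ u ∈ S, ∀ v ∈ S, C (i + 1) u v → C i (u ++ v) (v ++ u)

/-- Iterated products over a period. -/
def itp (L : ℕ) (y : ℕ → List ℕ) : ℕ → ℕ → List ℕ
  | 0 => y
  | i + 1 => cat (itp L y i) L

theorem cat_shift {F G : ℕ → List ℕ} {a : ℕ} (h : ∀ n, F (n + a) = G n) (L : ℕ) :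
    ∀ n, cat F L (n + a) = cat G L n := by
  induction L with
  | zero => intro n; rfl
  | succ L ih =>
    intro n
    have h1 : cat F (L + 1) (n + a) = F (n + a) ++ cat F L (n + a + 1) := rfl
    have h2 : cat G (L + 1) n = G n ++ cat G L (n + 1) := rfl
    have h3 : n + a + 1 = n + 1 + a := by ring
    rw [h1, h2, h, h3, ih]

theorem itp_shift {y z : ℕ → List ℕ} {a : ℕ} (L : ℕ) (h : ∀ n, y (n + a) = z n) (i : ℕ) :
    ∀ n, itp L y i (n + a) = itp L z i n := by
  induction i with
  | zero => exact h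
  | succ i ih => exact cat_shift ih L

theorem cat_rel {r : List ℕ → List ℕ → Prop} (hr : Cong r) {F G : ℕ → List ℕ}
    (h : ∀ n, r (F n) (G n)) (L : ℕ) : ∀ n, r (cat F L n) (cat G L n) := by
  induction L with
  | zero => intro n; exact hr.eqv.refl _
  | succ L ih => intro n; exact hr.app (h n) (ih (n + 1))

theorem itp_rel {r : List ℕ → List ℕ → Prop} (hr : Cong r) {y z : ℕ → List ℕ}
    (h : ∀ n, r (y n) (z n)) (L i : ℕ) : ∀ n, r (itp L y i n) (itp L z i n) := by
  induction i with
  | zero => exact h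
  | succ i ih => exact cat_rel hr ih L

theorem cat_mem {S : Set (List ℕ)} (hS : ∀ u ∈ S, ∀ v ∈ S, u ++ v ∈ S) {F : ℕ → List ℕ}
    (hF : ∀ n, F n ∈ S) (L : ℕ) : ∀ n, cat F (L + 1) n ∈ S := by
  induction L with
  | zero =>
    intro n
    simp only [cat, List.append_nil]
    exact hF n
  | succ L ih => intro n; exact hS _ (hF n) _ (ih (n + 1))

/-- A word commutes, one level lower, with a product of words equivalent to it. -/
theorem cat_comm_lev {C : ℕ → List ℕ → List ℕ → Prop} {S : Set (List ℕ)} {c : ℕ}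
    (H : Chain C S c) {i : ℕ} {F : ℕ → List ℕ} (hF : ∀ n, F n ∈ S) {x : List ℕ} (hx : x ∈ S)
    (h : ∀ n, C (i + 1) x (F n)) (L : ℕ) : ∀ n, C i (x ++ cat F L n) (cat F L n ++ x) := by
  have hr := H.cong i
  induction L with
  | zero =>
    intro n
    simp only [cat, List.append_nil, List.nil_append]
    exact hr.eqv.refl _
  | succ L ih =>
    intro n
    have h1 : cat F (L + 1) n = F n ++ cat F L (n + 1) := rfl
    rw [h1, ← List.append_assoc, List.append_assoc (F n)]
    refine hr.eqv.trans (hr.app (H.comm i x hx _ (hF n) (h n)) (hr.eqv.refl _)) ?_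
    rw [List.append_assoc]
    exact hr.app (hr.eqv.refl _) (ih (n + 1))

theorem itp_lev {C : ℕ → List ℕ → List ℕ → Prop} {S : Set (List ℕ)} {c : ℕ}
    (H : Chain C S c) {L : ℕ} {y : ℕ → List ℕ} (hy : ∀ n, y n ∈ S)
    (hp : ∀ n, y (n + (L + 1)) = y n) (i : ℕ) : ∀ l, i + l = c →
      (∀ n, itp (L + 1) y i n ∈ S) ∧ ∀ n m, C l (itp (L + 1) y i n) (itp (L + 1) y i m) := by
  induction i with
  | zero =>
    intro l hl
    rw [Nat.zero_add] at hl
    subst hl
    exact ⟨hy, fun n m => H.top _ (hy n) _ (hy m)⟩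
  | succ i ih =>
    intro l hl
    obtain ⟨h1, h2⟩ := ih (l + 1) (by omega)
    have hper : ∀ n, itp (L + 1) y i (n + (L + 1)) = itp (L + 1) y i n :=
      itp_shift (L + 1) hp i
    have hr := H.cong l
    have hstep : ∀ n, C l (itp (L + 1) y (i + 1) n) (itp (L + 1) y (i + 1) (n + 1)) := by
      intro n
      have e1 : itp (L + 1) y (i + 1) n =
        itp (L + 1) y i n ++ cat (itp (L + 1) y i) L (n + 1) := rfl
      have e2 : itp (L + 1) y (i + 1) (n + 1) =
          cat (itp (L + 1) y i) L (n + 1) ++ itp (L + 1) y i n := by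
        have e3 : itp (L + 1) y (i + 1) (n + 1) = cat (itp (L + 1) y i) (L + 1) (n + 1) := rfl
        have e4 : n + 1 + L = n + (L + 1) := by ring
        rw [e3, cat_succ, e4, hper]
      rw [e1, e2]
      exact cat_comm_lev H h1 (h1 n) (fun m => h2 n m) L (n + 1)
    have h0 : ∀ n, C l (itp (L + 1) y (i + 1) 0) (itp (L + 1) y (i + 1) n) := by
      intro n
      induction n with
      | zero => exact hr.eqv.refl _
      | succ n ihn => exact hr.eqv.trans ihn (hstep n)
    exact ⟨cat_mem H.app h1 L, fun n m => hr.eqv.trans (hr.eqv.symm (h0 n)) (h0 m)⟩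

theorem itp_dig {b : ℕ} {y : ℕ → List ℕ} (hy : ∀ n, Dig b (y n)) (L i : ℕ) :
    ∀ n, Dig b (itp L y i n) := by
  induction i with
  | zero => exact hy
  | succ i ih => exact cat_dig ih L

theorem itp_length {y : ℕ → List ℕ} {l : ℕ} (hy : ∀ n, (y n).length = l) (L i : ℕ) :
    ∀ n, (itp L y i n).length = L ^ i * l := by
  induction i with
  | zero => intro n; rw [pow_zero, one_mul]; exact hy n
  | succ i ih =>
    intro n
    have h1 : itp L y (i + 1) n = cat (itp L y i) L n := rfl
    rw [h1, cat_length ih]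
    ring

theorem cat_val2 (b l L : ℕ) : ∃ T : ℕ, (0 < L → 0 < T) ∧ ∀ (F G : ℕ → List ℕ) (d : ℕ),
    (∀ n, (F n).length = l) → (∀ n, (G n).length = l) →
    (∀ n, Nat.ofDigits b (G n) = Nat.ofDigits b (F n) + d) →
    ∀ n, Nat.ofDigits b (cat G L n) = Nat.ofDigits b (cat F L n) + d * T := by
  induction L with
  | zero => exact ⟨0, fun h => absurd h (lt_irrefl 0), fun F G d _ _ _ n => by simp only [cat,
      mul_zero, Nat.add_zero]⟩
  | succ L ih =>
    obtain ⟨T, -, h⟩ := ih
    refine ⟨1 + b ^ l * T, fun _ => by positivity, fun F G d hF hG hv n => ?_⟩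
    have h1 : cat F (L + 1) n = F n ++ cat F L (n + 1) := rfl
    have h2 : cat G (L + 1) n = G n ++ cat G L (n + 1) := rfl
    rw [h1, h2, Nat.ofDigits_append, Nat.ofDigits_append, hF, hG, h F G d hF hG hv, hv]
    ring

theorem itp_val (b l : ℕ) {L : ℕ} (hL : 0 < L) (i : ℕ) : ∃ T : ℕ, 0 < T ∧
    ∀ (y z : ℕ → List ℕ) (d : ℕ), (∀ n, (y n).length = l) → (∀ n, (z n).length = l) →
    (∀ n, Nat.ofDigits b (z n) = Nat.ofDigits b (y n) + d) →
    ∀ n, Nat.ofDigits b (itp L z i n) = Nat.ofDigits b (itp L y i n) + d * T := by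
  induction i with
  | zero => exact ⟨1, one_pos, fun y z d _ _ hv n => by rw [mul_one]; exact hv n⟩
  | succ i ih =>
    obtain ⟨T, hT, h⟩ := ih
    obtain ⟨T', hT', h'⟩ := cat_val2 b (L ^ i * l) L
    refine ⟨T * T', Nat.mul_pos hT (hT' hL), fun y z d hy hz hv n => ?_⟩
    have h1 : itp L z (i + 1) n = cat (itp L z i) L n := rfl
    have h2 : itp L y (i + 1) n = cat (itp L y i) L n := rfl
    rw [h1, h2, h' (itp L y i) (itp L z i) (d * T) (itp_length hy L i) (itp_length hz L i)
      (h y z d hy hz hv) n]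
    ring

/-- Two equivalent words of the same length and different values (Thue and Morse). -/
theorem exists_pair {b : ℕ} (hb : 2 ≤ b) {C : ℕ → List ℕ → List ℕ → Prop} {S : Set (List ℕ)}
    {c : ℕ} (H : Chain C S c) {x₀ y₀ : List ℕ} (hx : x₀ ∈ S) (hy : y₀ ∈ S) (hxd : Dig b x₀)
    (hyd : Dig b y₀) (hl : x₀.length = y₀.length) (h0 : 0 < x₀.length)
    (hv : Nat.ofDigits b x₀ < Nat.ofDigits b y₀) (i : ℕ) : ∀ l, i + l = c →
    ∃ x y : List ℕ, x ∈ S ∧ y ∈ S ∧ Dig b x ∧ Dig b y ∧ x.length = y.length ∧ 0 < x.length ∧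
      Nat.ofDigits b x < Nat.ofDigits b y ∧ C l x y := by
  have happ : ∀ {x y : List ℕ}, Dig b x → Dig b y → Dig b (x ++ y) := by
    intro x y hx hy d hd
    rcases List.mem_append.1 hd with h | h
    · exact hx d h
    · exact hy d h
  induction i with
  | zero =>
    intro l hlc
    rw [Nat.zero_add] at hlc
    subst hlc
    exact ⟨x₀, y₀, hx, hy, hxd, hyd, hl, h0, hv, H.top _ hx _ hy⟩
  | succ i ih =>
    intro l hlc
    obtain ⟨x, y, h1, h2, h3, h4, h5, h6, h7, h8⟩ := ih (l + 1) (by omega)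
    refine ⟨y ++ x, x ++ y, H.app _ h2 _ h1, H.app _ h1 _ h2, happ h4 h3, happ h3 h4, ?_, ?_, ?_,
      (H.cong l).eqv.symm (H.comm l x h1 y h2 h8)⟩
    · rw [List.length_append, List.length_append, Nat.add_comm]
    · rw [List.length_append]
      omega
    · rw [Nat.ofDigits_append, Nat.ofDigits_append, ← h5]
      have hB : 2 ≤ b ^ x.length := by
        calc 2 ≤ b := hb
          _ = b ^ 1 := (pow_one b).symm
          _ ≤ b ^ x.length := Nat.pow_le_pow_right (by omega) h6
      nlinarith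

/-- Equivalent words in arithmetic progression, from a central chain of congruences. -/
theorem words_nil {b : ℕ} (hb : 2 ≤ b) {C : ℕ → List ℕ → List ℕ → Prop} {S : Set (List ℕ)}
    {c : ℕ} (H : Chain C S c) {e : List ℕ} (he : Dig b e) {N : ℕ} (hN : 1 ≤ N)
    (hP : ∀ u : List ℕ, Dig b u → pw e N u ∈ S) (k : ℕ) :
    ∃ (w : ℕ → List ℕ) (D m : ℕ), 0 < D ∧ 0 < m ∧ ∀ j < k, Dig b (w j) ∧ (w j).length = m ∧
      (w j).getLast? = some 1 ∧ C 0 (w 0) (w j) ∧
      Nat.ofDigits b (w j) = Nat.ofDigits b (w 0) + j * D := by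
  have hr := H.cong 0
  have hd0 : Dig b [0] := by
    intro d hd
    rw [List.mem_singleton.1 hd]
    omega
  have hd1 : Dig b [1] := by
    intro d hd
    rw [List.mem_singleton.1 hd]
    omega
  have happ : ∀ {x y : List ℕ}, Dig b x → Dig b y → Dig b (x ++ y) := by
    intro x y hx hy d hd
    rcases List.mem_append.1 hd with h | h
    · exact hx d h
    · exact hy d h
  obtain ⟨g, g', hg, hg', hlen, hlt, hgr⟩ : ∃ g g' : List ℕ, Dig b g ∧ Dig b g' ∧
      g.length = g'.length ∧ Nat.ofDigits b g < Nat.ofDigits b g' ∧ C 0 g g' := by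
    obtain ⟨c₁, K, hK, hv⟩ := pw_val b hb e 1 N
    have e0 := hv [0] rfl
    have e1 := hv [1] rfl
    have hl : 0 < (pw e N [0]).length := by
      rw [pw_length]
      simp only [List.length_singleton]
      positivity
    obtain ⟨x, y, -, -, h3, h4, h5, -, h7, h8⟩ := exists_pair hb H (hP _ hd0) (hP _ hd1)
      (pw_dig he hd0 N) (pw_dig he hd1 N) (by rw [pw_length, pw_length]; rfl) hl (by
        rw [e0, e1]
        simp only [Nat.ofDigits_singleton, mul_zero, mul_one, Nat.add_zero]
        have := hK hN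
        omega) c 0 (Nat.add_zero c)
    exact ⟨x, y, h3, h4, h5, h7, h8⟩
  set G := Nat.ofDigits b g with hG
  set G' := Nat.ofDigits b g' with hG'
  set m₁ := g.length with hm1
  have hG'lt : G' < b ^ m₁ := by
    rw [hlen]
    exact Nat.ofDigits_lt_base_pow_length (by omega) hg'
  have hkb : k < b ^ k := Nat.lt_pow_self (by omega)
  have hbk : 0 < b ^ k := by positivity
  obtain ⟨L, hL⟩ : ∃ L, (G' - G) * b ^ k = L + 1 := by
    have : 0 < (G' - G) * b ^ k := Nat.mul_pos (by omega) hbk
    exact ⟨(G' - G) * b ^ k - 1, by omega⟩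
  have hLe : G * b ^ k + (L + 1) = G' * b ^ k := by
    rw [← hL, ← Nat.add_mul]
    congr 1
    omega
  -- the blocks
  have hwd : ∀ (x : List ℕ) (j : ℕ), Dig b x → x.length = m₁ → j < b ^ k →
      pad b (k + m₁) (Nat.ofDigits b x * b ^ k + j) = pad b k j ++ x := by
    intro x j hx hxl hj
    have h1 := eq_pad hb (L := k + m₁) (happ (pad_dig hb k j) hx)
      (by rw [List.length_append, pad_length, hxl])
    rw [Nat.ofDigits_append, pad_length, pad_val hb k j hj] at h1
    rw [← h1]
    congr 1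
    ring
  obtain ⟨c₁, K, hK, hv⟩ := pw_val b hb e (k + m₁) N
  set F : ℕ → List ℕ := fun n => pw e N (pad b (k + m₁) n) with hF
  have hFd : ∀ n, Dig b (F n) := fun n => pw_dig he (pad_dig hb _ n) N
  have hFl : ∀ n, (F n).length = N * (2 * e.length + (k + m₁)) := by
    intro n
    simp only [hF]
    rw [pw_length, pad_length]
  have hFv : ∀ n < b ^ (k + m₁), Nat.ofDigits b (F n) = c₁ + K * n := by
    intro n hn
    simp only [hF]
    rw [hv _ (pad_length b _ n), pad_val hb _ n hn]
  have hFS : ∀ n, F n ∈ S := fun n => hP _ (pad_dig hb _ n)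
  have hFr : ∀ j < b ^ k, C 0 (F (G * b ^ k + j)) (F (G * b ^ k + j + (L + 1))) := by
    intro j hj
    have h1 : G * b ^ k + j + (L + 1) = G' * b ^ k + j := by omega
    rw [h1]
    simp only [hF]
    rw [hwd g j hg rfl hj, hwd g' j hg' hlen.symm hj]
    exact pw_congr hr e (hr.app (hr.eqv.refl _) hgr) N
  -- periodic sequences of blocks
  set y : ℕ → ℕ → List ℕ := fun j n => F (G * b ^ k + j + n % (L + 1)) with hy
  have hyS : ∀ j n, y j n ∈ S := fun j n => hFS _
  have hyp : ∀ j n, y j (n + (L + 1)) = y j n := by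
    intro j n
    simp only [hy, Nat.add_mod_right]
  have hbd : ∀ j ≤ b ^ k, G * b ^ k + j + (L + 1) ≤ b ^ (k + m₁) := by
    intro j hj
    have h1 : (G' + 1) * b ^ k ≤ b ^ m₁ * b ^ k := Nat.mul_le_mul_right _ (by omega)
    have h2 : b ^ (k + m₁) = b ^ m₁ * b ^ k := by rw [pow_add]; ring
    have h3 : (G' + 1) * b ^ k = G' * b ^ k + b ^ k := by ring
    omega
  obtain ⟨T, hT, hval⟩ := itp_val b (N * (2 * e.length + (k + m₁))) (Nat.succ_pos L) c
  have hstep : ∀ j < b ^ k, C 0 (itp (L + 1) (y j) c 0) (itp (L + 1) (y (j + 1)) c 0) := by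
    intro j hj
    have h1 : ∀ n, C 0 ((fun n => y j (n + 1)) n) (y (j + 1) n) := by
      intro n
      simp only [hy]
      have hlt1 : n % (L + 1) < L + 1 := Nat.mod_lt _ (Nat.succ_pos L)
      rcases Nat.lt_or_ge (n % (L + 1)) L with h | h
      · have e1 : (n + 1) % (L + 1) = n % (L + 1) + 1 := by
          rw [Nat.add_mod]
          rcases Nat.eq_zero_or_pos L with h0 | h0
          · omega
          · rw [Nat.mod_eq_of_lt (show 1 < L + 1 by omega), Nat.mod_eq_of_lt (by omega)]
        have e2 : G * b ^ k + j + (n % (L + 1) + 1) = G * b ^ k + (j + 1) + n % (L + 1) := by ring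
        rw [e1, e2]
        exact hr.eqv.refl _
      · have e0 : n % (L + 1) = L := by omega
        have e1 : (n + 1) % (L + 1) = 0 := by
          rw [Nat.add_mod, e0]
          rcases Nat.eq_zero_or_pos L with h0 | h0
          · rw [h0]
          · rw [Nat.mod_eq_of_lt (show 1 < L + 1 by omega), Nat.mod_self]
        have e2 : G * b ^ k + (j + 1) + L = G * b ^ k + j + (L + 1) := by ring
        rw [e1, e0, e2, Nat.add_zero]
        exact hFr j hj
    have h2 : C 0 (itp (L + 1) (y j) c 0) (itp (L + 1) (y j) c 1) :=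
      (itp_lev H (hyS j) (hyp j) c 0 (Nat.add_zero c)).2 0 1
    have h3 : itp (L + 1) (y j) c (0 + 1) = itp (L + 1) (fun n => y j (n + 1)) c 0 :=
      itp_shift (L + 1) (fun n => rfl) c 0
    rw [Nat.zero_add] at h3
    rw [h3] at h2
    exact hr.eqv.trans h2 (itp_rel hr h1 (L + 1) c 0)
  have hrel : ∀ j, j ≤ b ^ k → C 0 (itp (L + 1) (y 0) c 0) (itp (L + 1) (y j) c 0) := by
    intro j
    induction j with
    | zero => intro _; exact hr.eqv.refl _
    | succ j ih => intro hj; exact hr.eqv.trans (ih (by omega)) (hstep j (by omega))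
  have hyl : ∀ j n, (y j n).length = N * (2 * e.length + (k + m₁)) := fun j n => hFl _
  refine ⟨fun j => itp (L + 1) (y j) c 0 ++ [1], K * T,
    (L + 1) ^ c * (N * (2 * e.length + (k + m₁))) + 1, Nat.mul_pos (hK hN) hT, by omega,
    fun j hj => ?_⟩
  have hjb : j ≤ b ^ k := by omega
  have hvj : ∀ n, Nat.ofDigits b (y j n) = Nat.ofDigits b (y 0 n) + K * j := by
    intro n
    have hlt1 : n % (L + 1) < L + 1 := Nat.mod_lt _ (Nat.succ_pos L)
    have h1 := hbd j hjb
    have h2 := hbd 0 (Nat.zero_le _)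
    simp only [hy]
    rw [hFv _ (by omega), hFv _ (by omega)]
    ring
  refine ⟨happ (itp_dig (fun n => hFd _) _ _ _) hd1, ?_, ?_, ?_, ?_⟩
  · rw [List.length_append, itp_length (hyl j), List.length_singleton]
  · exact List.getLast?_concat
  · exact hr.app (hrel j hjb) (hr.eqv.refl _)
  · simp only
    rw [Nat.ofDigits_append, Nat.ofDigits_append, itp_length (hyl j), itp_length (hyl 0),
      hval (y 0) (y j) (K * j) (hyl 0) (hyl j) hvj 0]
    ring

end Vale.Agent.P057.R3.H664
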